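import Vale.Agent.P155.E4.ME2
import Vale.Agent.P155.C276.Height
import Vale.Agent.P155.B.DomMain

/-!
# P155, TIGHT S5: `ME2` holds
-/

namespace Vale.Agent.P155.E4

open Finset Skel J E E3

/-- **`ME2` holds.** -/
theorem me2_holds : ME2 :=
  me2 E1.e_incr e_meas (e_loc_of_height (C276.c_height B1b.B_plane Dom.b_dom))

end Vale.Agent.P155.E4
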