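import Vale.Agent.P155.E4.Lay
import Vale.Agent.P155.E3.Main

/-!
# P155, TIGHT S5: the estimate on one atom
-/

namespace Vale.Agent.P155.E4

open Finset Skel J E E3

/-- the estimate on one atom, with explicit constants -/
theorem me_atom (hI : E_incr) (hM : E_meas) {T : Temp} {R s J n0 : ℕ} {κ CE CW : ℝ} {φ u : Pt → ℝ}
    {O : Set Pt} {p : Pt} {X : Expl} {ω : Conf} {G : Pt → ℕ → Set Conf}
    (hX : IsExpl T.V X) (hω : ω ∈ DD T.V) (hR1 : 1 ≤ R) (hfit : Fits T R) (hO : O ⊆ T.faceSet)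
    (hin : ∀ v : Pt, (∀ f : Pt, v.1 - 1 ≤ f.1 → f.1 ≤ v.1 → v.2 - 1 ≤ f.2 → f.2 ≤ v.2 → f ∈ O) →
      v ∈ (X ω).1 ∧ v ∈ (X ω).2) (W : Whit O p n0 s J (tt κ) CW u) (hCE : 0 ≤ CE) (hCW : 0 ≤ CW)
    (hG : LocGood T κ CE R G (fun n => s ≤ 16 * n)) (hs : 64 ≤ s)
    (hpar : ∀ n : ℕ, s ≤ 16 * n → tt κ n ≤ n ∧ (n : ℝ) ^ (1 - 3 * κ) ≤ 2 * tt κ n)
    (hκ : 0 ≤ κ) (hκ1 : κ ≤ 1 / 240) (hn0 : 1 ≤ n0) (hsM : 33 * s ≤ capM n0 0)
    {C0 Cd Mm Λ γ : ℝ} (hC0 : 0 ≤ C0)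
    (hCd : 0 ≤ Cd) (hγ : 0 < γ) (hMm : 0 ≤ Mm) (hφ : IsBump p n0 (C0 / (n0 : ℝ) ^ 2) φ)
    (hu : IsGreen O φ u) (huC : ∀ x, |u x| ≤ Cd)
    (hdec : ∀ x, |u x| ≤ Cd * ((dF O x : ℝ) / n0) ^ γ)
    (hmt : ∀ S : Finset Pt, ∑ x ∈ S, |fL O φ (G45.cutf O s) u x| ≤ Mm)
    (hmb : ∀ z : Pt, ∑ x ∈ box z s, |fL O φ (G45.cutf O s) u x| ≤ Λ)
    (hJR : (J : ℝ) ≤ 2 * R)
    {S1 S2 q : ℝ} (hS1 : (R : ℝ) ^ κ * (J * (16 * CW * (s : ℝ) ^ (-(1 / 2) : ℝ))) ≤ S1)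
    (hS2 : (R : ℝ) ^ κ * (J * (72 * CW * C0 * (s : ℝ) ^ (-(1 / 40) : ℝ) +
      4 * CW * Λ * (s : ℝ) ^ (6 * κ))) ≤ S2)
    (hS1' : CE * S1 ≤ 1 / 2) (hq : ((2 * s : ℝ) / n0) ^ γ ≤ q) (hq1 : q ≤ 4) :
    |cEx T.V X (fun ω' => hf ω' (lap (fun y => G45.cutf O s y * u y))) ω| ≤
      CE * S1 + 11200 * CW * (R : ℝ) ^ 5 * cEx T.V X (badW R G) ω ∧
    |cEx T.V X (fun ω' => (hf ω' (lap (fun y => G45.cutf O s y * u y))) ^ 2) ω -
        2 / Real.pi * pair φ u| ≤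
      CE * S1 * (2 + 2 * (9 * C0 * Cd + (9 * C0 * Cd + Cd * Mm) * 4)) + 2 * (CE * S2) +
      (9 * C0 * Cd + Cd * Mm) * q +
      256000000 * CW ^ 2 * (R : ℝ) ^ 10 * cEx T.V X (badW R G) ω := by
  have hRr : (1 : ℝ) ≤ R := by exact_mod_cast hR1
  have hR0 : (0 : ℝ) < R := by linarith
  have hfin : T.faceSet.Finite := fs_of_sub_box hfit
  have hOfin : O.Finite := hfin.subset hO
  have hOne : ∃ q, q ∉ O := hOfin.infinite_compl.nonempty
  have hdF : ∀ x, dF O x ≤ R + 1 := fun x =>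
    (dF_mono hO hfin x).trans (dF_le_of_fits hfit x)
  have hχ := isCut_cutf hOne (show 8 ≤ s by omega)
  have hΛ : 0 ≤ Λ := (Finset.sum_nonneg (fun _ _ => abs_nonneg _)).trans (hmb (0, 0))
  have F := W.fam hs (fun n hn => (hpar n hn).1) hdF
  have hp2 : ∀ n : ℕ, s ≤ 16 * n → (n : ℝ) ^ (1 - 3 * κ) ≤ 2 * tt κ n := fun n hn => (hpar n hn).2
  set BB : ℝ := cEx T.V X (badW R G) ω with hBB
  have hBB0 : 0 ≤ BB := cEx_nonneg (fun _ _ => badW_nonneg _ _ _)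
  set SH : ℝ := ∑ q ∈ W.I, W.H q.1 q.2 with hSH
  have hSH0 : 0 ≤ SH := Finset.sum_nonneg (fun q hq => F.H0 q hq)
  have hSHle : SH ≤ 8 * CW * (R : ℝ) ^ 2 := by
    refine (sum_Hc W hCW hs hκ1 hp2 hdF).trans ?_
    calc (J : ℝ) * (4 * CW * R) ≤ (2 * R) * (4 * CW * R) := by gcongr
      _ = _ := by ring
  set A1 : ℝ := ∑ q ∈ W.I, W.H q.1 q.2 * (nn s q.1 : ℝ) ^ (-1 + κ) with hA1
  have hA10 : 0 ≤ A1 := Finset.sum_nonneg (fun q hq => mul_nonneg (F.H0 q hq) (by positivity))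
  have hA1le : (R : ℝ) ^ κ * A1 ≤ S1 := by
    refine le_trans ?_ hS1
    exact mul_le_mul_of_nonneg_left (sum_A W hCW hs hκ1 hp2) (by positivity)
  have hS10 : 0 ≤ S1 := le_trans (by positivity) hA1le
  have hRA : CE * (R : ℝ) ^ κ * A1 ≤ CE * S1 := by
    rw [mul_assoc]
    exact mul_le_mul_of_nonneg_left hA1le hCE
  constructor
  · have h1 := first_moment hX hω hR1 hfit hO hin F hCE hG
    refine h1.trans ?_
    have k2 : 1400 * (R : ℝ) ^ 3 * SH * BB ≤ 11200 * CW * (R : ℝ) ^ 5 * BB := by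
      apply mul_le_mul_of_nonneg_right _ hBB0
      calc 1400 * (R : ℝ) ^ 3 * SH ≤ 1400 * (R : ℝ) ^ 3 * (8 * CW * (R : ℝ) ^ 2) :=
            mul_le_mul_of_nonneg_left hSHle (by positivity)
        _ = _ := by ring
    linarith
  · have hmass : ∀ q ∈ W.I, ∑ y ∈ box (W.x q.1 q.2) (nn s q.1),
        |lap (fun y => G45.cutf O s y * u y) y| ≤
        (if dn p (W.x q.1 q.2) ≤ n0 + nn s q.1 then 9 * C0 * ((nn s q.1 : ℝ) / n0) ^ 2 else 0) +
        (if 3 * nn s q.1 ≤ s then Λ else 0) := by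
      intro q hq
      have hq2 : q.2 ∈ W.act q.1 := (Finset.mem_sigma.1 hq).2
      have h1 := (W.hn q.1 q.2 hq2).2.1
      have h2 := (nn_ge hs q.1).1
      exact mass_box hOfin (by omega) hu hχ hC0 (by omega) hφ h1 hmb
    have h2 := second_moment hI hM hX hω hR1 hfit hO hin F hCE hG hmass
    set Z : Conf → ℝ := fun ω' => hf ω' (lap (fun y => G45.cutf O s y * u y)) with hZ
    set V : ℝ := cEx T.V X (fun ω' => (Z ω') ^ 2) ω with hV
    set PD : ℝ := pair (fun y => G45.cutf O s y * u y)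
      (lap (fun y => G45.cutf O s y * u y)) with hPD
    have hV0 : 0 ≤ V := cEx_nonneg (fun _ _ => sq_nonneg _)
    have hE : cEx T.V X (fun ω' => |Z ω'|) ω ≤ 1 + V := by
      calc cEx T.V X (fun ω' => |Z ω'|) ω ≤ cEx T.V X (fun ω' => 1 + (Z ω') ^ 2) ω := by
            apply cEx_mono
            intro ω' _
            have := sq_abs (Z ω')
            nlinarith [sq_nonneg (|Z ω'| - 1), abs_nonneg (Z ω')]
        _ = 1 + V := by rw [cEx_add, cEx_const hω]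
    have hE0 : 0 ≤ cEx T.V X (fun ω' => |Z ω'|) ω := cEx_nonneg (fun _ _ => abs_nonneg _)
    have hB1 := sum_B W hCW hs hκ hκ1 hp2 hn0 hsM hC0 hΛ
    set B1 : ℝ := ∑ q ∈ W.I, W.H q.1 q.2 * (nn s q.1 : ℝ) ^ (-(1 / 20) : ℝ) *
      ((if dn p (W.x q.1 q.2) ≤ n0 + nn s q.1 then 9 * C0 * ((nn s q.1 : ℝ) / n0) ^ 2 else 0) +
        (if 3 * nn s q.1 ≤ s then Λ else 0)) with hB1d
    have hB10 : 0 ≤ B1 := by
      apply Finset.sum_nonneg
      intro q hq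
      apply mul_nonneg (mul_nonneg (F.H0 q hq) (by positivity))
      apply add_nonneg <;> split_ifs <;> positivity
    have hB1le : (R : ℝ) ^ κ * B1 ≤ S2 :=
      (mul_le_mul_of_nonneg_left hB1 (by positivity)).trans hS2
    have hS20 : 0 ≤ S2 := le_trans (by positivity) hB1le
    have hRB : CE * (R : ℝ) ^ κ * B1 ≤ CE * S2 := by
      rw [mul_assoc]
      exact mul_le_mul_of_nonneg_left hB1le hCE
    have hpairD := pair_D hn0 hC0 hCd hγ hφ hu hOfin (hO.trans hfit) (by omega) hdec hχ hmt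
    rw [← hPD] at hpairD
    have hpairL := pair_le hn0 hC0 hCd hφ hu (hO.trans hfit) huC
    set K5 : ℝ := 9 * C0 * Cd + Cd * Mm with hK5
    have hK50 : 0 ≤ K5 := by positivity
    have hpi0 : (0 : ℝ) ≤ 2 / Real.pi := by positivity
    have hpD' : |pair φ u + PD| ≤ K5 * q :=
      hpairD.trans (mul_le_mul_of_nonneg_left hq hK50)
    have hDabs : |-(2 / Real.pi * PD)| ≤ 9 * C0 * Cd + K5 * 4 := by
      rw [abs_neg, abs_mul, abs_of_nonneg hpi0]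
      have k1 : |PD| ≤ |pair φ u| + K5 * q := by
        have : PD = (pair φ u + PD) - pair φ u := by ring
        rw [this]
        refine (abs_sub _ _).trans ?_
        linarith
      calc 2 / Real.pi * |PD| ≤ 1 * |PD| :=
            mul_le_mul_of_nonneg_right two_div_pi_le_one (abs_nonneg _)
        _ ≤ 9 * C0 * Cd + K5 * 4 := by
            have := mul_le_mul_of_nonneg_left hq1 hK50
            linarith
    set e2 : ℝ := CE * S2 + 128000000 * CW ^ 2 * (R : ℝ) ^ 10 * BB with he2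
    have he20 : 0 ≤ e2 := by positivity
    have hmain : |V - (-(2 / Real.pi * PD))| ≤
        (CE * S1) * cEx T.V X (fun ω' => |Z ω'|) ω + e2 := by
      rw [sub_neg_eq_add]
      refine h2.trans ?_
      have k1 : CE * (R : ℝ) ^ κ * A1 * cEx T.V X (fun ω' => |Z ω'|) ω ≤
          (CE * S1) * cEx T.V X (fun ω' => |Z ω'|) ω :=
        mul_le_mul_of_nonneg_right hRA hE0
      have k4 : 2000000 * (R : ℝ) ^ 6 * SH ^ 2 * BB ≤
          128000000 * CW ^ 2 * (R : ℝ) ^ 10 * BB := by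
        apply mul_le_mul_of_nonneg_right _ hBB0
        calc 2000000 * (R : ℝ) ^ 6 * SH ^ 2 ≤
              2000000 * (R : ℝ) ^ 6 * (8 * CW * (R : ℝ) ^ 2) ^ 2 := by
              apply mul_le_mul_of_nonneg_left _ (by positivity)
              exact pow_le_pow_left₀ hSH0 hSHle 2
          _ = _ := by ring
      linarith
    have hfin1 := v_ineq hV0 hE (mul_nonneg hCE hS10) hS1' he20 hmain hDabs
    have hlast : |2 / Real.pi * (pair φ u + PD)| ≤ K5 * q := by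
      rw [abs_mul, abs_of_nonneg hpi0]
      calc 2 / Real.pi * |pair φ u + PD| ≤ 1 * |pair φ u + PD| :=
            mul_le_mul_of_nonneg_right two_div_pi_le_one (abs_nonneg _)
        _ ≤ _ := by linarith
    have e : V - 2 / Real.pi * pair φ u = (V - (-(2 / Real.pi * PD))) -
        2 / Real.pi * (pair φ u + PD) := by ring
    rw [e]
    refine (abs_sub _ _).trans ?_
    calc _ ≤ CE * S1 * (2 + 2 * (9 * C0 * Cd + K5 * 4)) + 2 * e2 + K5 * q :=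
          add_le_add hfin1 hlast
      _ = _ := by rw [he2]; ring

end Vale.Agent.P155.E4
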