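import Vale.Agent.P155.E4.CutD

/-!
# P155, TIGHT S5: a single Whitney bump for a source at an arbitrary scale
-/

namespace Vale.Agent.P155.E4

open Finset Vale.Agent.P155 Vale.Agent.P155.G45 Vale.Agent.P155.G

/-- Harnack type hypothesis (the conclusion of `harnack_one`). -/
def Har (A : ℝ) : Prop := ∀ (x : Pt) (r : ℕ) (c : ℝ) (h : Pt → ℝ), 0 ≤ c →
  (∀ y, dn x y ≤ 2 * r → 0 ≤ h y) → (∀ y, dn x y < 2 * r → - lap h y = c) →
  ∀ y z, dn x y ≤ r → dn x z ≤ r → h y ≤ A * h z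

section
variable {A C0 : ℝ} {O : Set Pt} {p x : Pt} {n0 n : ℕ} {ub : Pt → ℝ}

theorem mem_near (hx : 7 * n ≤ dF O x) {y : Pt} (hy : dn x y < 6 * n) : y ∈ O :=
  mem_of_lt_dF (x := x) (by omega)

/-- Harnack for the potential of the density. -/
theorem har_ub (hA : 1 ≤ A) (hH : Har A) (hC0 : 0 ≤ C0) (hn0 : 1 ≤ n0)
    (hub : IsGreen O (dens C0 p n0) ub) (hub0 : ∀ y, 0 ≤ ub y) (hx : 7 * n ≤ dF O x)
    (hxp : 64 * n ≤ n0 + dn p x) {y z : Pt} (hy : dn x y ≤ 3 * n) (hz : dn x z ≤ 3 * n) :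
    ub y ≤ 4 * A * ub z := by
  have hd0 := dens_nonneg hC0 p n0 x
  have hdb : ∀ y, dn x y < 6 * n → dens C0 p n0 x ≤ 2 * dens C0 p n0 y ∧
      dens C0 p n0 y ≤ 2 * dens C0 p n0 x := fun y hy => dens_doubling hC0 hn0 (by omega)
  obtain ⟨h', hh1, hh2, hh3⟩ := flatten (x := x) (r := 6 * n) (c := dens C0 p n0 x / 2) (Λ := 4)
    (h := ub) (by positivity) (by norm_num) hub0
    (fun y hy => by
      rw [hub.eq y (mem_near hx hy)]
      linarith [(hdb y hy).1])
    (fun y hy => by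
      rw [hub.eq y (mem_near hx hy)]
      linarith [(hdb y hy).2])
  have h1 := hH x (3 * n) (4 * (dens C0 p n0 x / 2)) h' (by positivity)
    (fun y _ => (hub0 y).trans (hh1 y))
    (fun y hy => hh3 y (by omega)) y z hy hz
  have hA0 : 0 ≤ A := by linarith
  calc ub y ≤ h' y := hh1 y
    _ ≤ A * h' z := h1
    _ ≤ A * (4 * ub z) := mul_le_mul_of_nonneg_left (hh2 z) hA0
    _ = _ := by ring

/-- Lower bound of the potential by the density. -/
theorem low_ub (hC0 : 0 ≤ C0) (hn0 : 1 ≤ n0)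
    (hub : IsGreen O (dens C0 p n0) ub) (hub0 : ∀ y, 0 ≤ ub y) (hx : 7 * n ≤ dF O x)
    (hxp : 64 * n ≤ n0 + dn p x) : dens C0 p n0 x * (n : ℝ) ^ 2 ≤ 2 / 9 * ub x := by
  have hd0 := dens_nonneg hC0 p n0 x
  have hfin : ({y : Pt | dn x y < 6 * n}).Finite := by
    apply (box x (6 * n)).finite_toSet.subset
    intro y hy
    exact G45.mem_box.2 (le_of_lt hy)
  have h1 := comparison hfin (u := fun y => dens C0 p n0 x / 2 *
      ((9 * (n : ℝ) ^ 2) + (-1 / 4) * sqd x y)) (v := ub) ?_ ?_ x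
  · simp only [sqd_self, mul_zero, add_zero] at h1
    linarith
  · intro y hy
    rw [lap_smul, lap_add, lap_const, lap_smul, lap_sqd]
    have h2 := hub.eq y (mem_near hx hy)
    have h3 : dens C0 p n0 x ≤ 2 * dens C0 p n0 y := (dens_doubling hC0 hn0 (by
      have : dn x y < 6 * n := hy
      omega)).1
    linarith
  · intro y hy
    refine le_trans ?_ (hub0 y)
    have h2 : 6 * n ≤ dn x y := not_lt.1 hy
    have h3 : (6 * (n : ℝ)) ≤ dn x y := by exact_mod_cast h2
    have h4 := le_sqd x y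
    have h5 : (6 * (n : ℝ)) ^ 2 ≤ (dn x y : ℝ) ^ 2 := by gcongr
    apply mul_nonpos_of_nonneg_of_nonpos (by positivity)
    linarith

/-- the differences of the source are controlled by the density -/
theorem src_diff (hC0 : 0 ≤ C0) (hn0 : 1 ≤ n0) {φ : Pt → ℝ}
    (hφ : IsBump p n0 (C0 / (n0 : ℝ) ^ 2) φ) (hn : 8 ≤ n) (hxp : 64 * n ≤ n0 + dn p x)
    {a b : ℕ} (hab : a + b ≤ 3) {y : Pt} (hy : dn x y + (a + b) < 3 * n) :
    |(Dx^[a] (Dy^[b] φ)) y| ≤
      27 * (2 * dens C0 p n0 x) * ((((3 * n : ℕ) : ℝ))⁻¹) ^ (a + b) := by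
  have hd0 := dens_nonneg hC0 p n0 x
  have hnr : (0 : ℝ) < n := by
    have : 0 < n := by omega
    exact_mod_cast this
  by_cases hst : ∃ i j : ℕ, i ≤ a ∧ j ≤ b ∧ dn p (y.1 + (i : ℤ), y.2 + (j : ℤ)) ≤ n0
  · obtain ⟨i, j, hi, hj, hd⟩ := hst
    set y' : Pt := (y.1 + (i : ℤ), y.2 + (j : ℤ)) with hy'
    have hxy' : dn x y' ≤ 3 * n := by
      have h1 := dn_tri x y y'
      have h2 : dn y y' ≤ a + b := by
        rw [hy', dn_eq]; simp only; omega
      omega
    have h1 : C0 / (n0 : ℝ) ^ 2 ≤ 2 * dens C0 p n0 x :=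
      (le_dens hC0 hn0 hd).trans (dens_doubling hC0 hn0 (by omega)).2
    have hnn0 : n ≤ n0 := by
      have := dn_tri p y' x
      rw [dn_comm y' x] at this
      omega
    have hn0r : (0 : ℝ) < n0 := by exact_mod_cast hn0
    have h3 : (n0 : ℝ)⁻¹ ≤ 3 * (((3 * n : ℕ) : ℝ))⁻¹ := by
      push_cast
      rw [mul_inv, ← mul_assoc]
      norm_num
      exact inv_anti₀ hnr (by exact_mod_cast hnn0)
    refine (hφ.2 a b (by omega) y).trans ?_
    have hc0 : 0 ≤ C0 / (n0 : ℝ) ^ 2 := by positivity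
    calc C0 / (n0 : ℝ) ^ 2 * ((n0 : ℝ)⁻¹) ^ (a + b)
        ≤ (2 * dens C0 p n0 x) * (3 * (((3 * n : ℕ) : ℝ))⁻¹) ^ (a + b) := by gcongr
      _ = 3 ^ (a + b) * (2 * dens C0 p n0 x) * ((((3 * n : ℕ) : ℝ))⁻¹) ^ (a + b) := by
          rw [mul_pow]; ring
      _ ≤ 27 * (2 * dens C0 p n0 x) * ((((3 * n : ℕ) : ℝ))⁻¹) ^ (a + b) := by
          apply mul_le_mul_of_nonneg_right _ (by positivity)
          apply mul_le_mul_of_nonneg_right _ (by positivity)
          calc (3 : ℝ) ^ (a + b) ≤ 3 ^ 3 := pow_le_pow_right₀ (by norm_num) hab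
            _ = 27 := by norm_num
  · push Not at hst
    have h0 : (Dx^[a] (Dy^[b] φ)) y = 0 := by
      apply D_zero_of_stencil
      intro i j hi hj
      apply hφ.1
      intro hmem
      have := hst i j hi hj
      rw [G45.mem_box] at hmem
      omega
    rw [h0, abs_zero]
    positivity

/-- **A single bump.** -/
theorem bump_loc (hA : 1 ≤ A) (hH : Har A) (hC0 : 0 ≤ C0) (hn0 : 1 ≤ n0)
    {φ u : Pt → ℝ} (hφ : IsBump p n0 (C0 / (n0 : ℝ) ^ 2) φ) (hu : IsGreen O φ u)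
    (hub : IsGreen O (dens C0 p n0) ub) (hub0 : ∀ y, 0 ≤ ub y) (huub : ∀ y, |u y| ≤ ub y)
    {t : ℕ} (ht : 1 ≤ t) (htn : 16 * t ≤ n) (hn : 8 ≤ n) (hx : 7 * n ≤ dF O x)
    (hxp : 64 * n ≤ n0 + dn p x) {lam ρ : Pt → ℝ} {Λ P : ℝ}
    (hlam : ∀ a b : ℕ, a + b ≤ 4 → ∀ y, |(Dx^[a] (Dy^[b] lam)) y| ≤ Λ * ((t : ℝ)⁻¹) ^ (a + b))
    (hρ : ∀ a b : ℕ, a + b ≤ 4 → ∀ y, |(Dx^[a] (Dy^[b] ρ)) y| ≤ P * ((t : ℝ)⁻¹) ^ (a + b))
    (hρs : ∀ y, ρ y ≠ 0 → dn x y ≤ t) :
    IsBump x t (256 * (Λ * P) * (64 ^ 4 * (4 * A + 108) * ub x))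
      (fun y => lam y * ρ y * u y) := by
  have ht0 : (0 : ℝ) < t := by exact_mod_cast ht
  have hnr : (0 : ℝ) < n := by
    have : 0 < n := by omega
    exact_mod_cast this
  have hd0 := dens_nonneg hC0 p n0 x
  have hlow := low_ub hC0 hn0 hub hub0 hx hxp
  have hin : ∀ y, dn x y < 6 * n → y ∈ O := fun y hy => mem_near hx hy
  -- bounds for the differences of `u`
  have hud : ∀ a b : ℕ, a + b ≤ 4 → ∀ z, dn x z ≤ t + 8 →
      |(Dx^[a] (Dy^[b] u)) z| ≤ (64 ^ 4 * (4 * A + 108) * ub x) * ((t : ℝ)⁻¹) ^ (a + b) := by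
    intro a b hab z hz
    have h1 := diff_le 4 (3 * n) (by norm_num) (by omega) u x (4 * A * ub x)
      (27 * (2 * dens C0 p n0 x))
      (fun y hy => by
        rw [dinf_eq_dn] at hy
        have hy' : dn x y ≤ 3 * n := by exact_mod_cast hy
        exact (huub y).trans (har_ub hA hH hC0 hn0 hub hub0 hx hxp hy' (by
          rw [dn_self]; omega)))
      (fun a' b' hab' y hy => by
        rw [dinf_eq_dn] at hy
        have hy' : dn x y + (a' + b') < 3 * n := by exact_mod_cast hy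
        have e1 : (Dx^[a'] (Dy^[b'] (fun z => lap u z + φ z))) y = 0 := by
          apply D_zero_of_stencil
          intro i j hi hj
          have : ((y.1 + (i : ℤ), y.2 + (j : ℤ)) : Pt) ∈ O := by
            apply hin
            rw [dn_eq] at *
            simp only
            omega
          linarith [hu.eq _ this]
        rw [D_add] at e1
        have e2 : |(Dx^[a'] (Dy^[b'] (lap u))) y| = |(Dx^[a'] (Dy^[b'] φ)) y| := by
          have e3 : (Dx^[a'] (Dy^[b'] (lap u))) y + (Dx^[a'] (Dy^[b'] φ)) y = 0 := e1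
          have : (Dx^[a'] (Dy^[b'] (lap u))) y = - (Dx^[a'] (Dy^[b'] φ)) y := by
            linarith
          rw [this, abs_neg]
        rw [e2]
        exact src_diff hC0 hn0 hφ hn hxp (by omega) hy')
      a b hab z (by
        rw [dinf_eq_dn]
        have : 2 * dn x z ≤ 3 * n := by omega
        exact_mod_cast this)
    refine h1.trans ?_
    have hub' := hub0 x
    have h2 : 4 * A * ub x + ((3 * n : ℕ) : ℝ) ^ 2 * (27 * (2 * dens C0 p n0 x)) ≤
        (4 * A + 108) * ub x := by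
      push_cast
      have e : (3 * (n : ℝ)) ^ 2 * (27 * (2 * dens C0 p n0 x)) =
          486 * (dens C0 p n0 x * (n : ℝ) ^ 2) := by ring
      rw [e]
      linarith
    have h2' : 0 ≤ 4 * A * ub x + ((3 * n : ℕ) : ℝ) ^ 2 * (27 * (2 * dens C0 p n0 x)) := by
      have h6 : 0 ≤ A := by linarith
      positivity
    have h3 : (((3 * n : ℕ) : ℝ))⁻¹ ≤ (t : ℝ)⁻¹ := by
      apply inv_anti₀ ht0
      have : t ≤ 3 * n := by omega
      exact_mod_cast this
    have h4 : (16 * ((4 : ℕ) : ℝ)) ^ (a + b) ≤ 64 ^ 4 := by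
      push_cast
      norm_num
      calc (64 : ℝ) ^ (a + b) ≤ 64 ^ 4 := pow_le_pow_right₀ (by norm_num) hab
        _ = 16777216 := by norm_num
    calc (16 * ((4 : ℕ) : ℝ)) ^ (a + b) * ((((3 * n : ℕ) : ℝ))⁻¹) ^ (a + b) *
          (4 * A * ub x + ((3 * n : ℕ) : ℝ) ^ 2 * (27 * (2 * dens C0 p n0 x)))
        ≤ 64 ^ 4 * ((t : ℝ)⁻¹) ^ (a + b) * ((4 * A + 108) * ub x) := by
          gcongr
      _ = (64 ^ 4 * (4 * A + 108) * ub x) * ((t : ℝ)⁻¹) ^ (a + b) := by ring
  have hU : 0 ≤ 64 ^ 4 * (4 * A + 108) * ub x := by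
    have := hud 0 0 (by omega) x (by rw [dn_self]; omega)
    simp only [add_zero, pow_zero, mul_one] at this
    exact (abs_nonneg _).trans this
  have hΛP : ∀ _ : Pt, 0 ≤ Λ * P := by
    intro y
    have := hlam 0 0 (by omega) y
    have h5 := hρ 0 0 (by omega) y
    simp only [add_zero, pow_zero, mul_one] at this h5
    exact mul_nonneg ((abs_nonneg _).trans this) ((abs_nonneg _).trans h5)
  refine ⟨?_, ?_⟩
  · intro y hy
    rw [G45.mem_box] at hy
    have : ρ y = 0 := by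
      by_contra hne
      exact hy (hρs y hne)
    change lam y * ρ y * u y = 0
    rw [this]; ring
  · intro a b hab y
    have hLP := hΛP y
    by_cases hst : dn x y ≤ t + 4
    · have h1 := leibniz 4 lam ρ Λ P (t : ℝ)⁻¹ y (fun a b h => hlam a b h y)
        (fun a b i j h => hρ a b (by omega) _)
      have h2 := leibniz 4 (fun z => lam z * ρ z) u (16 * (Λ * P))
        (64 ^ 4 * (4 * A + 108) * ub x) (t : ℝ)⁻¹ y
        (fun a b h => (h1 a b h).trans (by
          apply mul_le_mul_of_nonneg_right _ (by positivity)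
          apply mul_le_mul_of_nonneg_right _ hLP
          calc (2 : ℝ) ^ (a + b) ≤ 2 ^ 4 := pow_le_pow_right₀ (by norm_num) h
            _ = 16 := by norm_num))
        (fun a b i j h => hud a b (by omega) _ (by
          rw [dn_eq] at *
          simp only
          omega)) a b hab
      refine h2.trans ?_
      apply mul_le_mul_of_nonneg_right _ (by positivity)
      calc (2 : ℝ) ^ (a + b) * (16 * (Λ * P) * (64 ^ 4 * (4 * A + 108) * ub x))
          ≤ 2 ^ 4 * (16 * (Λ * P) * (64 ^ 4 * (4 * A + 108) * ub x)) := by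
            apply mul_le_mul_of_nonneg_right _ (by positivity)
            exact pow_le_pow_right₀ (by norm_num) hab
        _ = 256 * (Λ * P) * (64 ^ 4 * (4 * A + 108) * ub x) := by ring
    · have h0 : (Dx^[a] (Dy^[b] (fun y => lam y * ρ y * u y))) y = 0 := by
        apply D_zero_of_stencil
        intro i j hi hj
        have : ρ (y.1 + i, y.2 + j) = 0 := by
          by_contra hne
          have := hρs _ hne
          apply hst
          rw [dn_eq] at *
          simp only at this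
          omega
        simp only [this]; ring
      rw [h0, abs_zero]
      positivity

end

end Vale.Agent.P155.E4
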