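import Vale.Agent.P155.E4.Mass
import Vale.Agent.P155.G45.WFinal

/-!
# P155, TIGHT S5: cut-off functions and layers for a general Lipschitz scale function
-/

namespace Vale.Agent.P155.E4

open Finset Vale.Agent.P155 Vale.Agent.P155.G45 Vale.Agent.P155.G

open Classical in
/-- cut-off at scale `s` of the scale function `D`: zero where `D ≤ s`, one where `D ≥ 2s` -/
noncomputable def cutD (D : Pt → ℕ) (s : ℕ) : Pt → ℝ :=
  Av (s / 8) (fun z => if s + 4 * (s / 8) < D z then 1 else 0)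

theorem cutD_nonneg (D : Pt → ℕ) (s : ℕ) (x : Pt) : 0 ≤ cutD D s x := by
  unfold cutD
  apply Av_nonneg
  intro z
  split_ifs <;> norm_num

theorem cutD_le_one (D : Pt → ℕ) {s : ℕ} (hs : 8 ≤ s) (x : Pt) : cutD D s x ≤ 1 := by
  unfold cutD
  apply Av_le_one (by omega)
  intro z
  split_ifs <;> norm_num

theorem cutD_zero {D : Pt → ℕ} (hD : ∀ x y, D x ≤ D y + dn x y) {s : ℕ} (hs : 8 ≤ s) {x : Pt}
    (hx : D x ≤ s) : cutD D s x = 0 := by
  unfold cutD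
  apply Av_eq_const (by omega)
  intro i j hi hj
  have h1 := hD (x.1 + i, x.2 + j) x
  have h2 : dn (x.1 + (i : ℤ), x.2 + (j : ℤ)) x ≤ 4 * (s / 8 - 1) := by
    rw [dn_eq]; simp only; omega
  rw [if_neg]
  omega

theorem cutD_one {D : Pt → ℕ} (hD : ∀ x y, D x ≤ D y + dn x y) {s : ℕ} (hs : 8 ≤ s) {x : Pt}
    (hx : 2 * s ≤ D x) : cutD D s x = 1 := by
  unfold cutD
  apply Av_eq_const (by omega)
  intro i j hi hj
  have h1 := hD x (x.1 + i, x.2 + j)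
  have h2 : dn x (x.1 + (i : ℤ), x.2 + (j : ℤ)) ≤ 4 * (s / 8 - 1) := by
    rw [dn_eq]; simp only; omega
  rw [if_pos]
  omega

theorem cutD_diff (D : Pt → ℕ) {s : ℕ} (hs : 8 ≤ s) (a b : ℕ) (hab : a + b ≤ 4) (y : Pt) :
    |(Dx^[a] (Dy^[b] (cutD D s))) y| ≤ 32 ^ 4 * ((s : ℝ)⁻¹) ^ (a + b) := by
  have hm : 1 ≤ s / 8 := by omega
  have h1 := Av_diff_bound hm (f := fun z => if s + 4 * (s / 8) < D z then (1 : ℝ) else 0)
    (M := 1) (fun z => by
      by_cases hc : s + 4 * (s / 8) < D z <;> simp [hc]) a b (by omega) (by omega) y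
  have h2 : (Dx^[a] (Dy^[b] (cutD D s))) y = (Dx^[a] (Dy^[b] (Av (s / 8)
      (fun z => if s + 4 * (s / 8) < D z then (1 : ℝ) else 0)))) y := by
    unfold cutD
    congr!
  rw [h2]
  refine h1.trans ?_
  rw [mul_one]
  have hs0 : (0 : ℝ) < s := by
    have : 0 < s := by omega
    exact_mod_cast this
  have hm' : (s : ℝ) / 16 ≤ ((s / 8 : ℕ) : ℝ) := by
    have : s ≤ 16 * (s / 8) := by omega
    have h3 : (s : ℝ) ≤ 16 * ((s / 8 : ℕ) : ℝ) := by exact_mod_cast this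
    linarith
  have h4 : 2 / ((s / 8 : ℕ) : ℝ) ≤ 32 * (s : ℝ)⁻¹ := by
    calc 2 / ((s / 8 : ℕ) : ℝ) ≤ 2 / ((s : ℝ) / 16) := by
          apply div_le_div_of_nonneg_left (by norm_num) (by positivity) hm'
      _ = 32 * (s : ℝ)⁻¹ := by field_simp; norm_num
  calc (2 / ((s / 8 : ℕ) : ℝ)) ^ (a + b) ≤ (32 * (s : ℝ)⁻¹) ^ (a + b) := by gcongr
    _ = 32 ^ (a + b) * ((s : ℝ)⁻¹) ^ (a + b) := mul_pow _ _ _
    _ ≤ 32 ^ 4 * ((s : ℝ)⁻¹) ^ (a + b) := by
        apply mul_le_mul_of_nonneg_right _ (by positivity)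
        exact pow_le_pow_right₀ (by norm_num) hab

/-- At small scales the cut-off is the one of the distance to the complement. -/
theorem cutD_eq_cutf {D : Pt → ℕ} {O : Set Pt} {s : ℕ}
    (h : ∀ z, s + 4 * (s / 8) < D z ↔ s + 4 * (s / 8) < dF O z) : cutD D s = cutf O s := by
  unfold cutD cutf
  congr 1
  funext z
  by_cases hz : s + 4 * (s / 8) < D z
  · rw [if_pos hz, if_pos ((h z).1 hz)]
  · rw [if_neg hz, if_neg (fun h' => hz ((h z).2 h'))]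

/-- the `j`-th layer function -/
noncomputable def layD (D : Pt → ℕ) (s j : ℕ) : Pt → ℝ :=
  fun z => cutD D (s * 2 ^ j) z + -(cutD D (s * 2 ^ (j + 1)) z)

theorem layD_sum (D : Pt → ℕ) (s J : ℕ) (y : Pt) :
    ∑ j ∈ range J, layD D s j y = cutD D s y - cutD D (s * 2 ^ J) y := by
  have h1 : ∑ j ∈ range J, layD D s j y =
      ∑ j ∈ range J, (cutD D (s * 2 ^ j) y - cutD D (s * 2 ^ (j + 1)) y) := by
    apply Finset.sum_congr rfl
    intro j _
    unfold layD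
    ring
  rw [h1, Finset.sum_range_sub' (fun j => cutD D (s * 2 ^ j) y)]
  simp

theorem layD_diff (D : Pt → ℕ) {s : ℕ} (hs : 8 ≤ s) (j : ℕ) {t : ℕ} (ht : 1 ≤ t)
    (hts : t ≤ s * 2 ^ j) (a b : ℕ) (hab : a + b ≤ 4) (y : Pt) :
    |(Dx^[a] (Dy^[b] (layD D s j))) y| ≤ 2 * 32 ^ 4 * ((t : ℝ)⁻¹) ^ (a + b) := by
  have ht0 : (0 : ℝ) < t := by exact_mod_cast ht
  have key : ∀ i, j ≤ i → |(Dx^[a] (Dy^[b] (cutD D (s * 2 ^ i)))) y| ≤
      32 ^ 4 * ((t : ℝ)⁻¹) ^ (a + b) := by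
    intro i hi
    have h2 : s * 2 ^ j ≤ s * 2 ^ i := Nat.mul_le_mul_left _ (Nat.pow_le_pow_right (by norm_num) hi)
    have h1 : 1 ≤ 2 ^ i := Nat.one_le_two_pow
    have h8 : 8 ≤ s * 2 ^ i := by nlinarith
    refine (cutD_diff D h8 a b hab y).trans ?_
    apply mul_le_mul_of_nonneg_left _ (by norm_num)
    apply pow_le_pow_left₀ (by positivity)
    apply inv_anti₀ ht0
    exact_mod_cast hts.trans h2
  unfold layD
  rw [D_add a b (cutD D (s * 2 ^ j)) (fun z => -(cutD D (s * 2 ^ (j + 1)) z)), D_neg]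
  have h1 := key j le_rfl
  have h2 := key (j + 1) (by omega)
  calc _ ≤ |(Dx^[a] (Dy^[b] (cutD D (s * 2 ^ j)))) y| +
        |-(Dx^[a] (Dy^[b] (cutD D (s * 2 ^ (j + 1))))) y| := abs_add_le _ _
    _ ≤ 32 ^ 4 * ((t : ℝ)⁻¹) ^ (a + b) + 32 ^ 4 * ((t : ℝ)⁻¹) ^ (a + b) := by
        rw [abs_neg]
        exact add_le_add h1 h2
    _ = _ := by ring

theorem layD_ne {D : Pt → ℕ} (hD : ∀ x y, D x ≤ D y + dn x y) {s : ℕ} (hs : 8 ≤ s) {j : ℕ}
    {z : Pt} (h : layD D s j z ≠ 0) : s * 2 ^ j < D z ∧ D z < 4 * (s * 2 ^ j) := by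
  have h1 : 1 ≤ 2 ^ j := Nat.one_le_two_pow
  have h8 : 8 ≤ s * 2 ^ j := by nlinarith
  have e : s * 2 ^ (j + 1) = 2 * (s * 2 ^ j) := by rw [pow_succ]; ring
  constructor
  · by_contra hcon
    apply h
    have z1 : cutD D (s * 2 ^ j) z = 0 := cutD_zero hD h8 (by omega)
    have z2 : cutD D (s * 2 ^ (j + 1)) z = 0 := cutD_zero hD (by omega) (by omega)
    unfold layD
    rw [z1, z2]; simp
  · by_contra hcon
    apply h
    have z1 : cutD D (s * 2 ^ j) z = 1 := cutD_one hD h8 (by omega)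
    have z2 : cutD D (s * 2 ^ (j + 1)) z = 1 := cutD_one hD (by omega) (by omega)
    unfold layD
    rw [z1, z2]; simp

end Vale.Agent.P155.E4
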