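import Vale.Agent.P155.E4.Dens

/-!
# P155, TIGHT S5: decay near the complement and mass bounds at an arbitrary scale
-/

namespace Vale.Agent.P155.E4

open Finset Vale.Agent.P155 Vale.Agent.P155.G45 Vale.Agent.P155.J Vale.Agent.P155.H12
open Vale.Agent.P155.H904

theorem cpr_inter {O : Set Pt} (hCP : CPr O) (q : Pt) (n : ℕ) :
    CPr (O ∩ {y | dn q y < n}) := by
  intro p hp r
  by_cases hpO : p ∈ O
  · have hd : n ≤ dn q p := by
      by_contra h
      exact hp ⟨hpO, not_le.1 h⟩
    rw [dn_eq] at hd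
    have hcase : n ≤ (q.1 - p.1).natAbs ∨ n ≤ (q.2 - p.2).natAbs := by omega
    rcases hcase with h | h
    · rcases le_total q.1 p.1 with h1 | h1
      · refine ⟨(p.1 + r, p.2), fun h2 => ?_, ?_⟩
        · have h3 := h2.2
          rw [Set.mem_ofPred_eq, dn_eq] at h3
          simp only at h3
          omega
        · rw [dn_eq]; simp only; omega
      · refine ⟨(p.1 - r, p.2), fun h2 => ?_, ?_⟩
        · have h3 := h2.2
          rw [Set.mem_ofPred_eq, dn_eq] at h3
          simp only at h3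
          omega
        · rw [dn_eq]; simp only; omega
    · rcases le_total q.2 p.2 with h1 | h1
      · refine ⟨(p.1, p.2 + r), fun h2 => ?_, ?_⟩
        · have h3 := h2.2
          rw [Set.mem_ofPred_eq, dn_eq] at h3
          simp only at h3
          omega
        · rw [dn_eq]; simp only; omega
      · refine ⟨(p.1, p.2 - r), fun h2 => ?_, ?_⟩
        · have h3 := h2.2
          rw [Set.mem_ofPred_eq, dn_eq] at h3
          simp only at h3
          omega
        · rw [dn_eq]; simp only; omega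
  · obtain ⟨y, hy, hd⟩ := hCP p hpO r
    exact ⟨y, fun h => hy h.1, hd⟩

/-- Decay of a bounded potential near the complement, at scale `n0`. -/
theorem decay_meso {C β : ℝ} (hβ : 0 < β) (hC : 0 ≤ C) (hSD : SupDecay C β) :
    ∃ D : ℝ, 0 < D ∧ ∀ (O : Set Pt), O.Finite → CPr O → ∀ (n0 : ℕ) (C1 M : ℝ) (φ u : Pt → ℝ),
      1 ≤ n0 → 0 ≤ C1 → 0 ≤ M → (∀ y, |φ y| ≤ C1 / (n0 : ℝ) ^ 2) → IsGreen O φ u →
      (∀ y, |u y| ≤ M) →
      ∀ x, |u x| ≤ D * (C1 + 1 + M) * ((dF O x : ℝ) / n0) ^ (min 1 (β / 2)) := by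
  classical
  obtain ⟨D, hD, hgd⟩ := green_decay hβ hC hSD
  set γ : ℝ := min 1 (β / 2) with hγ
  have hγ0 : 0 < γ := lt_min one_pos (by positivity)
  have hγβ : γ ≤ β := (min_le_right _ _).trans (by linarith)
  refine ⟨D + (C * 2 ^ β) * (1 + D) + 1, by positivity, ?_⟩
  intro O hO hCP n0 C1 M φ u hn hC1 hM hφ hu huM x
  have hn0 : (0 : ℝ) < n0 := by exact_mod_cast hn
  have hOne := exists_notMem hO
  obtain ⟨q, hq, hqd⟩ := exists_dF hOne x
  set d := dF O x with hd
  have hS : 0 ≤ C1 + 1 + M := by positivity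
  rcases Nat.eq_zero_or_pos d with hd0 | hd0
  · have hx : x ∉ O := by
      rw [hd0, dn_eq_zero] at hqd
      rwa [hqd]
    rw [hu.off x hx, abs_zero]
    positivity
  rcases Nat.lt_or_ge n0 d with hlt | hge
  · have h1 : (1 : ℝ) ≤ ((d : ℝ) / n0) ^ γ := by
      apply Real.one_le_rpow _ hγ0.le
      rw [le_div_iff₀ hn0, one_mul]
      exact_mod_cast hlt.le
    calc |u x| ≤ M := huM x
      _ ≤ 1 * (C1 + 1 + M) * 1 := by linarith
      _ ≤ _ := by
          gcongr
          have : 0 ≤ (C * 2 ^ β) * (1 + D) := by positivity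
          linarith
  -- main case
  set O' : Set Pt := O ∩ {y | dn q y < n0} with hO'
  have hO'f : O'.Finite := hO.subset Set.inter_subset_left
  obtain ⟨v, hv⟩ := exists_green hO'f φ
  have hv' : IsGreen O' (fun y => (C1 + 1)⁻¹ * φ y) (fun y => (C1 + 1)⁻¹ * v y) :=
    { off := fun y hy => by rw [hv.off y hy, mul_zero]
      eq := fun y hy => by
        rw [lap_smul]
        have := hv.eq y hy
        linear_combination (C1 + 1)⁻¹ * this }
  have hd1 := hgd n0 O' q _ _ hn (fun y hy => le_of_lt hy.2) (cpr_inter hCP q n0) hv' (fun y => by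
    rw [abs_mul, abs_of_nonneg (by positivity : (0 : ℝ) ≤ (C1 + 1)⁻¹)]
    calc (C1 + 1)⁻¹ * |φ y| ≤ (C1 + 1)⁻¹ * (C1 / (n0 : ℝ) ^ 2) :=
          mul_le_mul_of_nonneg_left (hφ y) (by positivity)
      _ ≤ 1 / (n0 : ℝ) ^ 2 := by
          rw [← mul_div_assoc]
          apply div_le_div_of_nonneg_right _ (by positivity)
          rw [inv_mul_le_iff₀ (by positivity)]
          linarith)
  have hvb : ∀ y, |v y| ≤ (C1 + 1) * (D * ((dF O' y : ℝ) / n0) ^ γ) := by
    intro y
    have h1 := hd1 y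
    rw [abs_mul, abs_of_nonneg (by positivity : (0 : ℝ) ≤ (C1 + 1)⁻¹),
      inv_mul_le_iff₀ (by positivity)] at h1
    exact h1
  have hdF' : ∀ y, dF O' y ≤ dF O y := by
    intro y
    obtain ⟨z, hz, hzd⟩ := exists_dF hOne y
    rw [← hzd]
    exact dF_le (fun h => hz h.1)
  have hdFn : ∀ y, dF O' y ≤ n0 + dn q y := by
    intro y
    have h1 := hdF' y
    have h2 := dF_le (O := O') (x := y) (y := q) (fun h => hq h.1)
    rw [dn_comm] at h2
    omega
  -- sup bound of `v`
  have hvM : ∀ y, |v y| ≤ (C1 + 1) * D := by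
    intro y
    by_cases hy : y ∈ O'
    · refine (hvb y).trans ?_
      apply mul_le_mul_of_nonneg_left _ (by positivity)
      calc D * ((dF O' y : ℝ) / n0) ^ γ ≤ D * 1 := by
            apply mul_le_mul_of_nonneg_left _ hD.le
            apply Real.rpow_le_one (by positivity) _ hγ0.le
            rw [div_le_one hn0]
            have h2 := dF_le (O := O') (x := y) (y := q) (fun h => hq h.1)
            rw [dn_comm] at h2
            have h3 : dn q y < n0 := hy.2
            exact_mod_cast (by omega : dF O' y ≤ n0)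
        _ = D := mul_one D
    · rw [hv.off y hy, abs_zero]
      positivity
  have hw := hSD O q n0 (M + (C1 + 1) * D) (fun y => u y - v y)
    (fun r _ => hCP q hq r)
    (fun y hy => by
      show u y - v y = 0
      rw [hu.off y hy, hv.off y (fun h => hy h.1), sub_zero])
    (fun y hy hyd => by
      rw [lap_sub]
      have h1 := hu.eq y hy
      have h2 := hv.eq y ⟨hy, hyd⟩
      linarith)
    (fun y _ => (abs_sub _ _).trans (add_le_add (huM y) (hvM y))) x (by
      rw [dn_comm, hqd]; exact hge)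
  rw [dn_comm, hqd] at hw
  have hdr : (1 : ℝ) ≤ d := by exact_mod_cast hd0
  have hdn : (d : ℝ) ≤ n0 := by exact_mod_cast hge
  have h2 : (((d : ℝ) + 1) / ((n0 : ℝ) + 1)) ^ β ≤ 2 ^ β * ((d : ℝ) / n0) ^ γ := by
    calc (((d : ℝ) + 1) / ((n0 : ℝ) + 1)) ^ β ≤ (2 * ((d : ℝ) / n0)) ^ β := by
          apply Real.rpow_le_rpow (by positivity) _ hβ.le
          rw [← mul_div_assoc, div_le_div_iff₀ (by positivity) hn0]
          nlinarith
      _ = 2 ^ β * ((d : ℝ) / n0) ^ β := Real.mul_rpow (by norm_num) (by positivity)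
      _ ≤ 2 ^ β * ((d : ℝ) / n0) ^ γ := by
          apply mul_le_mul_of_nonneg_left _ (by positivity)
          apply Real.rpow_le_rpow_of_exponent_ge (by positivity) _ hγβ
          rw [div_le_one hn0]
          exact hdn
  have hX : 0 ≤ ((d : ℝ) / n0) ^ γ := by positivity
  have h3 : |v x| ≤ (C1 + 1) * (D * ((d : ℝ) / n0) ^ γ) := by
    refine (hvb x).trans ?_
    apply mul_le_mul_of_nonneg_left _ (by positivity)
    apply mul_le_mul_of_nonneg_left _ hD.le
    apply Real.rpow_le_rpow (by positivity) _ hγ0.le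
    apply div_le_div_of_nonneg_right _ hn0.le
    exact_mod_cast hdF' x
  have h4 : |u x| ≤ |u x - v x| + |v x| := by
    have := abs_add_le (u x - v x) (v x)
    rwa [sub_add_cancel] at this
  have h5 : |u x - v x| ≤ C * (2 ^ β * ((d : ℝ) / n0) ^ γ) * (M + (C1 + 1) * D) := by
    refine hw.trans ?_
    apply mul_le_mul_of_nonneg_right _ (by positivity)
    exact mul_le_mul_of_nonneg_left h2 hC
  have h6 : M + (C1 + 1) * D ≤ (1 + D) * (C1 + 1 + M) := by
    have : 0 ≤ D * M := by positivity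
    nlinarith
  have h7 : C * (2 ^ β * ((d : ℝ) / n0) ^ γ) * (M + (C1 + 1) * D) ≤
      C * (2 ^ β * ((d : ℝ) / n0) ^ γ) * ((1 + D) * (C1 + 1 + M)) :=
    mul_le_mul_of_nonneg_left h6 (by positivity)
  have h8 : (C1 + 1) * (D * ((d : ℝ) / n0) ^ γ) ≤ D * (C1 + 1 + M) * ((d : ℝ) / n0) ^ γ := by
    have : 0 ≤ D * ((d : ℝ) / n0) ^ γ * M := by positivity
    nlinarith
  have h9 : 0 ≤ (C1 + 1 + M) * ((d : ℝ) / n0) ^ γ := by positivity
  calc |u x| ≤ C * (2 ^ β * ((d : ℝ) / n0) ^ γ) * ((1 + D) * (C1 + 1 + M)) +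
        D * (C1 + 1 + M) * ((d : ℝ) / n0) ^ γ := by linarith
    _ = (D + (C * 2 ^ β) * (1 + D)) * ((C1 + 1 + M) * ((d : ℝ) / n0) ^ γ) := by ring
    _ ≤ (D + (C * 2 ^ β) * (1 + D) + 1) * ((C1 + 1 + M) * ((d : ℝ) / n0) ^ γ) := by
        apply mul_le_mul_of_nonneg_right _ h9
        linarith
    _ = _ := by ring

end Vale.Agent.P155.E4
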