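import Vale.Agent.P155.H904.PT3

/-!
# P155, TIGHT S5: potential theory for sources at an arbitrary scale

`dens C0 p n0` is a positive doubling density which dominates a source of size `C0 / n0²` in
`box p n0`; its Green potential `ub` is bounded and decays near the complement.
-/

namespace Vale.Agent.P155.E4

open Finset Vale.Agent.P155 Vale.Agent.P155.G45 Vale.Agent.P155.J Vale.Agent.P155.H12
open Vale.Agent.P155.H904

/-! ## flattening -/

/-- A nonnegative function with doubling density is comparable to one with constant density. -/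
theorem flatten {x : Pt} {r : ℕ} {c Λ : ℝ} {h : Pt → ℝ} (hc : 0 ≤ c) (hΛ : 1 ≤ Λ)
    (h0 : ∀ y, 0 ≤ h y) (h1 : ∀ y, dn x y < r → c ≤ - lap h y)
    (h2 : ∀ y, dn x y < r → - lap h y ≤ Λ * c) :
    ∃ h' : Pt → ℝ, (∀ y, h y ≤ h' y) ∧ (∀ y, h' y ≤ Λ * h y) ∧
      ∀ y, dn x y < r → - lap h' y = Λ * c := by
  classical
  have hfin : ({y : Pt | dn x y < r}).Finite := by
    apply (box x r).finite_toSet.subset
    intro y hy
    exact G45.mem_box.2 (le_of_lt hy)
  obtain ⟨g, hg⟩ := exists_green hfin (fun y => - lap h y - c)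
  have hg0 : ∀ y, 0 ≤ g y := green_nonneg hfin hg (fun y hy => by linarith [h1 y hy])
  have hgle : ∀ y, g y ≤ (1 - 1 / Λ) * h y := by
    have hΛ0 : 0 < Λ := by linarith
    have hk : 0 ≤ 1 - 1 / Λ := by
      have : 1 / Λ ≤ 1 := by rw [div_le_one hΛ0]; exact hΛ
      linarith
    apply green_le_super hfin hg
    · intro y hy
      rw [lap_smul]
      have a2 := h2 y hy
      have a3 : (1 / Λ) * (- lap h y) ≤ c := by
        rw [one_div, inv_mul_le_iff₀ hΛ0]
        exact a2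
      linarith
    · intro y _
      exact mul_nonneg hk (h0 y)
  refine ⟨fun y => Λ * (h y - g y), ?_, ?_, ?_⟩
  · intro y
    have hΛ0 : 0 < Λ := by linarith
    have := hgle y
    have e : Λ * ((1 - 1 / Λ) * h y) = Λ * h y - h y := by field_simp
    have h3 := mul_le_mul_of_nonneg_left this hΛ0.le
    rw [e] at h3
    show h y ≤ Λ * (h y - g y)
    linarith
  · intro y
    show Λ * (h y - g y) ≤ Λ * h y
    have := hg0 y
    have hΛ0 : 0 < Λ := by linarith
    nlinarith
  · intro y hy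
    rw [lap_smul, lap_sub]
    have := hg.eq y hy
    linear_combination (-Λ) * this

/-! ## the density -/

/-- the dominating density -/
noncomputable def dens (C0 : ℝ) (p : Pt) (n0 : ℕ) (y : Pt) : ℝ :=
  8 * C0 * n0 / ((n0 : ℝ) + dn p y) ^ 3

theorem dens_nonneg {C0 : ℝ} (hC0 : 0 ≤ C0) (p : Pt) (n0 : ℕ) (y : Pt) : 0 ≤ dens C0 p n0 y := by
  unfold dens
  positivity

theorem dens_le {C0 : ℝ} (hC0 : 0 ≤ C0) (p : Pt) {n0 : ℕ} (hn : 1 ≤ n0) (y : Pt) :
    dens C0 p n0 y ≤ 8 * C0 / (n0 : ℝ) ^ 2 := by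
  have hn0 : (0 : ℝ) < n0 := by exact_mod_cast hn
  unfold dens
  rw [div_le_div_iff₀ (by positivity) (by positivity)]
  have h1 : (n0 : ℝ) ^ 3 ≤ ((n0 : ℝ) + dn p y) ^ 3 := by
    apply pow_le_pow_left₀ hn0.le
    have : (0 : ℝ) ≤ dn p y := by positivity
    linarith
  calc 8 * C0 * n0 * (n0 : ℝ) ^ 2 = 8 * C0 * (n0 : ℝ) ^ 3 := by ring
    _ ≤ 8 * C0 * ((n0 : ℝ) + dn p y) ^ 3 := by
        apply mul_le_mul_of_nonneg_left h1 (by positivity)

theorem le_dens {C0 : ℝ} (hC0 : 0 ≤ C0) {p : Pt} {n0 : ℕ} (hn : 1 ≤ n0) {y : Pt}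
    (hy : dn p y ≤ n0) : C0 / (n0 : ℝ) ^ 2 ≤ dens C0 p n0 y := by
  have hn0 : (0 : ℝ) < n0 := by exact_mod_cast hn
  have hy' : (dn p y : ℝ) ≤ n0 := by exact_mod_cast hy
  unfold dens
  rw [div_le_div_iff₀ (by positivity) (by positivity)]
  have h1 : ((n0 : ℝ) + dn p y) ^ 3 ≤ (2 * (n0 : ℝ)) ^ 3 := by
    apply pow_le_pow_left₀ (by positivity)
    linarith
  calc C0 * ((n0 : ℝ) + dn p y) ^ 3 ≤ C0 * (2 * (n0 : ℝ)) ^ 3 :=
        mul_le_mul_of_nonneg_left h1 hC0
    _ = 8 * C0 * n0 * (n0 : ℝ) ^ 2 := by ring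

/-- The density at comparable points. -/
theorem dens_doubling {C0 : ℝ} (hC0 : 0 ≤ C0) {p : Pt} {n0 : ℕ} (hn : 1 ≤ n0) {x y : Pt}
    (hxy : 8 * dn x y ≤ n0 + dn p x) :
    dens C0 p n0 x ≤ 2 * dens C0 p n0 y ∧ dens C0 p n0 y ≤ 2 * dens C0 p n0 x := by
  have hn0 : (0 : ℝ) < n0 := by exact_mod_cast hn
  have t1 : (dn p y : ℝ) ≤ dn p x + dn x y := by exact_mod_cast dn_tri p x y
  have t2 : (dn p x : ℝ) ≤ dn p y + dn x y := by
    have := dn_tri p y x
    rw [dn_comm y x] at this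
    exact_mod_cast this
  have t3 : 8 * (dn x y : ℝ) ≤ n0 + dn p x := by exact_mod_cast hxy
  set X : ℝ := (n0 : ℝ) + dn p x with hX
  set Y : ℝ := (n0 : ℝ) + dn p y with hY
  have hX0 : 0 < X := by positivity
  have hY0 : 0 < Y := by positivity
  have a1 : Y ≤ 9 / 8 * X := by linarith
  have a2 : X ≤ 8 / 7 * Y := by linarith
  have b1 : Y ^ 3 ≤ 2 * X ^ 3 := by
    calc Y ^ 3 ≤ (9 / 8 * X) ^ 3 := pow_le_pow_left₀ hY0.le a1 3
      _ = 729 / 512 * X ^ 3 := by ring
      _ ≤ 2 * X ^ 3 := by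
          apply mul_le_mul_of_nonneg_right _ (by positivity)
          norm_num
  have b2 : X ^ 3 ≤ 2 * Y ^ 3 := by
    calc X ^ 3 ≤ (8 / 7 * Y) ^ 3 := pow_le_pow_left₀ hX0.le a2 3
      _ = 512 / 343 * Y ^ 3 := by ring
      _ ≤ 2 * Y ^ 3 := by
          apply mul_le_mul_of_nonneg_right _ (by positivity)
          norm_num
  have hk : 0 ≤ 8 * C0 * n0 := by positivity
  unfold dens
  rw [← hX, ← hY]
  constructor
  · rw [← mul_div_assoc, div_le_div_iff₀ (by positivity) (by positivity)]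
    nlinarith
  · rw [← mul_div_assoc, div_le_div_iff₀ (by positivity) (by positivity)]
    nlinarith

/-- Total mass of the density. -/
theorem dens_mass {C0 : ℝ} (hC0 : 0 ≤ C0) (p : Pt) {n0 : ℕ} (hn : 1 ≤ n0) (S : Finset Pt) :
    ∑ y ∈ S, dens C0 p n0 y ≤ 128 * C0 := by
  classical
  have hn0 : (0 : ℝ) < n0 := by exact_mod_cast hn
  have hn1 : (1 : ℝ) ≤ n0 := by exact_mod_cast hn
  obtain ⟨N, hN⟩ : ∃ N : ℕ, ∀ y ∈ S, dn p y ≤ N :=
    ⟨S.sup (fun y => dn p y), fun y hy => Finset.le_sup (f := fun y => dn p y) hy⟩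
  have hsub : S ⊆ box p N := fun y hy => G45.mem_box.2 (hN y hy)
  have h1 : ∑ y ∈ S, dens C0 p n0 y ≤ ∑ y ∈ box p N, dens C0 p n0 y :=
    Finset.sum_le_sum_of_subset_of_nonneg hsub (fun y _ _ => dens_nonneg hC0 p n0 y)
  refine h1.trans ?_
  have hmap : ∀ x ∈ box p N, dn p x ∈ Finset.range (N + 1) := by
    intro x hx
    have := G45.mem_box.1 hx
    rw [Finset.mem_range]
    omega
  rw [← Finset.sum_fiberwise_of_maps_to hmap]
  have h2 : ∀ k ∈ Finset.range (N + 1),
      ∑ x ∈ (box p N).filter (fun x => dn p x = k), dens C0 p n0 x ≤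
        64 * C0 * n0 * (1 / (((n0 : ℝ) + k) ^ 2)) := by
    intro k _
    have e : ∀ x ∈ (box p N).filter (fun x => dn p x = k), dens C0 p n0 x =
        8 * C0 * n0 / ((n0 : ℝ) + k) ^ 3 := by
      intro x hx
      unfold dens
      rw [(Finset.mem_filter.1 hx).2]
    rw [Finset.sum_congr rfl e, Finset.sum_const, nsmul_eq_mul]
    have h3 : (((box p N).filter (fun x => dn p x = k)).card : ℝ) ≤ 8 * ((k : ℝ) + 1) := by
      exact_mod_cast card_shell p N k
    have hk : (0 : ℝ) < (n0 : ℝ) + k := by positivity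
    calc (((box p N).filter (fun x => dn p x = k)).card : ℝ) *
          (8 * C0 * n0 / ((n0 : ℝ) + k) ^ 3)
        ≤ (8 * ((n0 : ℝ) + k)) * (8 * C0 * n0 / ((n0 : ℝ) + k) ^ 3) := by
          apply mul_le_mul_of_nonneg_right _ (by positivity)
          linarith
      _ = 64 * C0 * n0 * (1 / (((n0 : ℝ) + k) ^ 2)) := by
          field_simp
          ring
  refine (Finset.sum_le_sum h2).trans ?_
  rw [← Finset.mul_sum]
  have h3 : ∀ M : ℕ, ∑ k ∈ Finset.range (M + 1), 1 / (((n0 : ℝ) + k) ^ 2) ≤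
      2 / n0 - 1 / ((n0 : ℝ) + M) := by
    intro M
    induction M with
    | zero =>
      rw [Finset.sum_range_one]
      push_cast
      rw [add_zero]
      have : 1 / (n0 : ℝ) ^ 2 ≤ 1 / n0 := by
        apply one_div_le_one_div_of_le hn0
        nlinarith
      have e : 2 / (n0 : ℝ) - 1 / n0 = 1 / n0 := by ring
      linarith
    | succ M ih =>
      rw [Finset.sum_range_succ]
      have hM : (0 : ℝ) < (n0 : ℝ) + M := by positivity
      have hM1 : (0 : ℝ) < (n0 : ℝ) + ((M + 1 : ℕ) : ℝ) := by positivity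
      have h4 : 1 / ((n0 : ℝ) + ((M + 1 : ℕ) : ℝ)) ^ 2 ≤
          1 / ((n0 : ℝ) + M) - 1 / ((n0 : ℝ) + ((M + 1 : ℕ) : ℝ)) := by
        rw [div_sub_div _ _ hM.ne' hM1.ne', div_le_div_iff₀ (by positivity) (by positivity)]
        push_cast
        nlinarith
      linarith
  have h4 := h3 N
  have h5 : 0 ≤ 1 / ((n0 : ℝ) + N) := by positivity
  calc 64 * C0 * n0 * ∑ k ∈ Finset.range (N + 1), 1 / (((n0 : ℝ) + k) ^ 2)
      ≤ 64 * C0 * n0 * (2 / n0) := by
        apply mul_le_mul_of_nonneg_left _ (by positivity)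
        linarith
    _ = 128 * C0 := by field_simp; ring

/-! ## the sup bound -/

/-- The Green potential of the density is bounded. -/
theorem dens_sup {C β : ℝ} (hβ : 0 < β) (hC : 0 ≤ C) (hSD : SupDecay C β) (hOut : OutDecay C β) :
    ∃ D : ℝ, 0 < D ∧ ∀ (O : Set Pt), O.Finite → CPr O → ∀ (p : Pt) (n0 : ℕ) (C0 : ℝ)
      (ub : Pt → ℝ), p ∉ O → 1 ≤ n0 → 0 ≤ C0 → IsGreen O (dens C0 p n0) ub →
      ∀ x, ub x ≤ D * C0 := by
  classical
  obtain ⟨D, hD, hpot⟩ := bump_pot hβ hC hSD hOut hβ le_rfl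
  refine ⟨128 * D, by positivity, ?_⟩
  intro O hO hCP p n0 C0 ub hp hn hC0 hub x
  have hn0 : (0 : ℝ) < n0 := by exact_mod_cast hn
  -- a dyadic radius containing `O`
  obtain ⟨N, hN⟩ : ∃ N : ℕ, ∀ y ∈ O, dn p y ≤ 2 ^ N := by
    refine ⟨hO.toFinset.sup (fun y => dn p y), fun y hy => ?_⟩
    have h1 : dn p y ≤ hO.toFinset.sup (fun y => dn p y) :=
      Finset.le_sup (f := fun y => dn p y) (by simpa using hy)
    exact h1.trans Nat.lt_two_pow_self.le
  set b : ℕ → Pt → ℝ := fun i y => if dn p y ≤ n0 * 2 ^ i then 64 * C0 / ((n0 : ℝ) ^ 2 * 8 ^ i)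
    else 0 with hb
  have hg : ∀ i, ∃ v, IsGreen O (b i) v := fun i => exists_green hO (b i)
  choose v hv using hg
  have hvi : ∀ i y, v i y ≤ D * (64 * C0 / 2 ^ i) := by
    intro i y
    have h1 : 1 ≤ n0 * 2 ^ i := Nat.one_le_iff_ne_zero.2 (by positivity)
    refine (hpot O hO hCP p (n0 * 2 ^ i) (64 * C0 / 2 ^ i) (b i) (v i) hp h1 (by positivity)
      (fun z => ?_) (fun z => ?_) (fun z hz => ?_) (hv i) y).1
    · simp only [hb]
      split_ifs <;> positivity
    · simp only [hb]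
      have e : 64 * C0 / 2 ^ i / ((n0 * 2 ^ i : ℕ) : ℝ) ^ 2 = 64 * C0 / ((n0 : ℝ) ^ 2 * 8 ^ i) := by
        push_cast
        have e8 : (8 : ℝ) ^ i = 2 ^ i * (2 ^ i) ^ 2 := by
          rw [← pow_mul, ← pow_add, show (8 : ℝ) = 2 ^ 3 by norm_num, ← pow_mul]
          congr 1
          ring
        rw [e8]
        field_simp
      rw [e]
      split_ifs
      · exact le_rfl
      · positivity
    · by_contra h
      apply hz
      simp only [hb]
      rw [if_neg h]
  have hle : ∀ y, ub y ≤ ∑ i ∈ Finset.range (N + 1), v i y := by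
    apply green_le_super hO hub
    · intro y hy
      have hl : lap (fun z => ∑ i ∈ Finset.range (N + 1), v i z) y =
          ∑ i ∈ Finset.range (N + 1), lap (v i) y := by
        unfold lap
        simp only [Finset.sum_add_distrib, Finset.sum_sub_distrib, Finset.mul_sum]
      rw [hl, ← Finset.sum_neg_distrib]
      have hl2 : ∑ i ∈ Finset.range (N + 1), - lap (v i) y =
          ∑ i ∈ Finset.range (N + 1), b i y :=
        Finset.sum_congr rfl (fun i _ => (hv i).eq y hy)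
      rw [hl2]
      -- the smallest `i` with `dn p y ≤ n0 * 2 ^ i`
      have hex : ∃ i, dn p y ≤ n0 * 2 ^ i :=
        ⟨N, (hN y hy).trans (Nat.le_mul_of_pos_left _ (by omega))⟩
      set i := Nat.find hex with hi
      have hi1 : dn p y ≤ n0 * 2 ^ i := Nat.find_spec hex
      have hiN : i ≤ N := Nat.find_min' hex
        ((hN y hy).trans (Nat.le_mul_of_pos_left _ (by omega)))
      have h2 : b i y ≤ ∑ i ∈ Finset.range (N + 1), b i y := by
        apply Finset.single_le_sum (f := fun i => b i y)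
        · intro j _
          simp only [hb]
          split_ifs <;> positivity
        · rw [Finset.mem_range]; omega
      refine le_trans ?_ h2
      simp only [hb]
      rw [if_pos hi1]
      rcases Nat.eq_zero_or_pos i with h0 | h0
      · rw [h0]
        have := dens_le hC0 p hn y
        refine this.trans ?_
        rw [pow_zero, mul_one]
        apply div_le_div_of_nonneg_right _ (by positivity)
        linarith
      · obtain ⟨i', hi'⟩ : ∃ i', i = i' + 1 := ⟨i - 1, by omega⟩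
        have h3 : ¬ (dn p y ≤ n0 * 2 ^ i') := Nat.find_min hex (by omega)
        have h4 : (n0 : ℝ) * 2 ^ i' ≤ dn p y := by
          have : n0 * 2 ^ i' ≤ dn p y := by omega
          exact_mod_cast this
        unfold dens
        rw [hi', div_le_div_iff₀ (by positivity) (by positivity)]
        have h5 : ((n0 : ℝ) * 2 ^ i') ^ 3 ≤ ((n0 : ℝ) + dn p y) ^ 3 := by
          apply pow_le_pow_left₀ (by positivity)
          linarith
        have e8 : (8 : ℝ) ^ (i' + 1) = 8 * (2 ^ i') ^ 3 := by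
          rw [pow_succ, ← pow_mul, mul_comm i' 3, pow_mul]
          norm_num
          ring
        rw [e8]
        calc 8 * C0 * n0 * ((n0 : ℝ) ^ 2 * (8 * (2 ^ i') ^ 3)) =
              64 * C0 * ((n0 : ℝ) * 2 ^ i') ^ 3 := by ring
          _ ≤ 64 * C0 * ((n0 : ℝ) + dn p y) ^ 3 :=
              mul_le_mul_of_nonneg_left h5 (by positivity)
    · intro y hy
      apply Finset.sum_nonneg
      intro i _
      rw [(hv i).off y hy]
  refine (hle x).trans ?_
  have hgeo : ∀ M : ℕ, ∑ i ∈ Finset.range (M + 1), (1 : ℝ) / 2 ^ i ≤ 2 - 1 / 2 ^ M := by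
    intro M
    induction M with
    | zero => norm_num
    | succ M ih =>
      rw [Finset.sum_range_succ]
      have e : (1 : ℝ) / 2 ^ (M + 1) = 1 / 2 ^ M / 2 := by rw [pow_succ]; field_simp
      rw [e]
      linarith
  calc ∑ i ∈ Finset.range (N + 1), v i x ≤ ∑ i ∈ Finset.range (N + 1), D * (64 * C0 / 2 ^ i) :=
        Finset.sum_le_sum (fun i _ => hvi i x)
    _ = 64 * D * C0 * ∑ i ∈ Finset.range (N + 1), (1 : ℝ) / 2 ^ i := by
        rw [Finset.mul_sum]
        apply Finset.sum_congr rfl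
        intro i _
        ring
    _ ≤ 64 * D * C0 * 2 := by
        apply mul_le_mul_of_nonneg_left _ (by positivity)
        have := hgeo N
        have h0 : (0 : ℝ) ≤ 1 / 2 ^ N := by positivity
        linarith
    _ = 128 * D * C0 := by ring

end Vale.Agent.P155.E4
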