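import Vale.Agent.P155.E4.Pair

/-!
# P155, TIGHT S5: sums over the Whitney partition
-/

namespace Vale.Agent.P155.E4

open Finset Skel J E E3

theorem div_t {S Y κ : ℝ} {n t : ℕ} (hn : 1 ≤ n) (hS : 0 ≤ S)
    (ht : (n : ℝ) ^ (1 - 3 * κ) ≤ 2 * t) (h : S * (t : ℝ) ^ 2 ≤ Y) :
    S ≤ 4 * Y * (n : ℝ) ^ (-2 + 6 * κ) := by
  have hn0 : (0 : ℝ) < n := by exact_mod_cast hn
  have h1 : ((n : ℝ) ^ (1 - 3 * κ)) ^ 2 ≤ (2 * (t : ℝ)) ^ 2 :=
    pow_le_pow_left₀ (by positivity) ht 2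
  have h2 : ((n : ℝ) ^ (1 - 3 * κ)) ^ 2 * (n : ℝ) ^ (-2 + 6 * κ) = 1 := by
    rw [← Real.rpow_natCast, ← Real.rpow_mul hn0.le, ← Real.rpow_add hn0]
    have : (1 - 3 * κ) * ((2 : ℕ) : ℝ) + (-2 + 6 * κ) = 0 := by push_cast; ring
    rw [this, Real.rpow_zero]
  calc S = S * (((n : ℝ) ^ (1 - 3 * κ)) ^ 2 * (n : ℝ) ^ (-2 + 6 * κ)) := by rw [h2, mul_one]
    _ = S * ((n : ℝ) ^ (1 - 3 * κ)) ^ 2 * (n : ℝ) ^ (-2 + 6 * κ) := by ring
    _ ≤ S * (2 * (t : ℝ)) ^ 2 * (n : ℝ) ^ (-2 + 6 * κ) := by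
        apply mul_le_mul_of_nonneg_right _ (by positivity)
        exact mul_le_mul_of_nonneg_left h1 hS
    _ = 4 * (S * (t : ℝ) ^ 2) * (n : ℝ) ^ (-2 + 6 * κ) := by ring
    _ ≤ _ := by
        apply mul_le_mul_of_nonneg_right _ (by positivity)
        linarith

theorem sum_sigma_le {J : ℕ} {act : ℕ → Finset Pt} {f : ℕ → Pt → ℝ} {B : ℝ}
    (h : ∀ j, ∑ k ∈ act j, f j k ≤ B) :
    ∑ q ∈ (range J).sigma (fun j => act j), f q.1 q.2 ≤ J * B := by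
  rw [Finset.sum_sigma]
  calc ∑ j ∈ range J, ∑ k ∈ act j, f j k ≤ ∑ _j ∈ range J, B :=
        Finset.sum_le_sum (fun j _ => h j)
    _ = J * B := by rw [Finset.sum_const, card_range, nsmul_eq_mul]

/-- the scale function of the bumps -/
noncomputable def tt (κ : ℝ) (n : ℕ) : ℕ := ⌊(n : ℝ) ^ (1 - 3 * κ)⌋₊

section
variable {O : Set Pt} {p : Pt} {n0 s J : ℕ} {κ C : ℝ} {u : Pt → ℝ}

/-- index set of the bumps -/
noncomputable def Whit.I (W : Whit O p n0 s J (tt κ) C u) : Finset (Σ _ : ℕ, Pt) :=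
  (range J).sigma (fun j => W.act j)

theorem Whit.fam (W : Whit O p n0 s J (tt κ) C u) {R : ℕ} (hs : 64 ≤ s)
    (hpar : ∀ n : ℕ, s ≤ 16 * n → tt κ n ≤ n) (hdF : ∀ x, dF O x ≤ R + 1) :
    Fam O R κ (fun n => s ≤ 16 * n) W.I (fun q => W.x q.1 q.2) (fun q => nn s q.1)
      (fun q => W.H q.1 q.2) (fun q => W.ψ q.1 q.2) (fun y => G45.cutf O s y * u y) := by
  have key : ∀ q ∈ W.I, q.2 ∈ W.act q.1 := fun q hq => (Finset.mem_sigma.1 hq).2
  refine ⟨fun q hq => (nn_ge hs q.1).2, fun q hq => ?_, fun q hq => ?_, fun q hq => ?_,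
    fun q hq => (W.hn q.1 q.2 (key q hq)).2.2.1, fun q hq => (W.hn q.1 q.2 (key q hq)).2.2.2,
    fun q hq => hpar _ (nn_ge hs q.1).2, fun y => ?_⟩
  · have := (nn_ge hs q.1).1
    omega
  · have h1 := (W.hn q.1 q.2 (key q hq)).2.1
    have h2 := hdF (W.x q.1 q.2)
    have h3 := (nn_ge hs q.1).1
    omega
  · have h1 := (W.hn q.1 q.2 (key q hq)).2.1
    omega
  · rw [W.sum y]
    unfold Whit.I
    rw [Finset.sum_sigma]

/-- layer sums: total height -/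
theorem lay_H (W : Whit O p n0 s J (tt κ) C u) (hC : 0 ≤ C) (hs : 64 ≤ s)
    (hpar : ∀ n : ℕ, s ≤ 16 * n → (n : ℝ) ^ (1 - 3 * κ) ≤ 2 * tt κ n) (j : ℕ) :
    0 ≤ ∑ k ∈ W.act j, W.H j k ∧
    ∑ k ∈ W.act j, W.H j k ≤ 4 * C * (nn s j : ℝ) ^ (2 / 9 + 6 * κ) ∧
    (97 * nn s j ≤ capM n0 0 → ∑ k ∈ W.act j, W.H j k ≤ 4 * C * (nn s j : ℝ) ^ (6 * κ)) := by
  obtain ⟨g1, g2⟩ := nn_ge hs j
  have hn1 : 1 ≤ nn s j := by omega
  have hnr : (1 : ℝ) ≤ (nn s j : ℝ) := by exact_mod_cast hn1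
  have hnp : (0 : ℝ) < (nn s j : ℝ) := by linarith
  have h0 : 0 ≤ ∑ k ∈ W.act j, W.H j k := Finset.sum_nonneg (fun k hk => (W.hn j k hk).2.2.1)
  have h1 := W.scale j
  have h3 : (nn s j : ℝ) ^ 2 ≤ (nn s j : ℝ) ^ (20 / 9 : ℝ) := by
    rw [← Real.rpow_natCast]
    exact Real.rpow_le_rpow_of_exponent_le hnr (by norm_num)
  refine ⟨h0, ?_, fun hc => ?_⟩
  · have h2 : (∑ k ∈ W.act j, W.H j k) * (tt κ (nn s j) : ℝ) ^ 2 ≤
        C * (nn s j : ℝ) ^ (20 / 9 : ℝ) := by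
      refine h1.trans ?_
      apply mul_le_mul_of_nonneg_left _ hC
      split_ifs
      · exact h3
      · exact le_rfl
    refine (div_t hn1 h0 (hpar _ g2) h2).trans (le_of_eq ?_)
    rw [show 4 * (C * (nn s j : ℝ) ^ (20 / 9 : ℝ)) * (nn s j : ℝ) ^ (-2 + 6 * κ) =
      4 * C * ((nn s j : ℝ) ^ (20 / 9 : ℝ) * (nn s j : ℝ) ^ (-2 + 6 * κ)) by ring,
      ← Real.rpow_add hnp]
    congr 2; ring
  · rw [if_pos hc] at h1
    refine (div_t hn1 h0 (hpar _ g2) h1).trans (le_of_eq ?_)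
    rw [show 4 * (C * (nn s j : ℝ) ^ 2) * (nn s j : ℝ) ^ (-2 + 6 * κ) =
      4 * C * ((nn s j : ℝ) ^ 2 * (nn s j : ℝ) ^ (-2 + 6 * κ)) by ring,
      ← Real.rpow_natCast, ← Real.rpow_add hnp]
    congr 2; push_cast; ring

/-- the sum of `H n^{-1+κ}` -/
theorem sum_A (W : Whit O p n0 s J (tt κ) C u) (hC : 0 ≤ C) (hs : 64 ≤ s)
    (hκ1 : κ ≤ 1 / 240)
    (hpar : ∀ n : ℕ, s ≤ 16 * n → (n : ℝ) ^ (1 - 3 * κ) ≤ 2 * tt κ n) :
    ∑ q ∈ W.I, W.H q.1 q.2 * (nn s q.1 : ℝ) ^ (-1 + κ) ≤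
      J * (16 * C * (s : ℝ) ^ (-(1 / 2) : ℝ)) := by
  apply sum_sigma_le (f := fun j k => W.H j k * (nn s j : ℝ) ^ (-1 + κ))
  intro j
  obtain ⟨g1, g2⟩ := nn_ge hs j
  have hn1 : 1 ≤ nn s j := by omega
  have hnr : (1 : ℝ) ≤ (nn s j : ℝ) := by exact_mod_cast hn1
  have hnp : (0 : ℝ) < (nn s j : ℝ) := by linarith
  have hsp : (0 : ℝ) < s := by
    have : 0 < s := by omega
    exact_mod_cast this
  obtain ⟨h0, h1, -⟩ := lay_H W hC hs hpar j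
  rw [← Finset.sum_mul]
  calc (∑ k ∈ W.act j, W.H j k) * (nn s j : ℝ) ^ (-1 + κ)
      ≤ 4 * C * (nn s j : ℝ) ^ (2 / 9 + 6 * κ) * (nn s j : ℝ) ^ (-1 + κ) :=
        mul_le_mul_of_nonneg_right h1 (by positivity)
    _ = 4 * C * (nn s j : ℝ) ^ (2 / 9 + 6 * κ + (-1 + κ)) := by
        rw [mul_assoc, ← Real.rpow_add hnp]
    _ ≤ 4 * C * (nn s j : ℝ) ^ (-(1 / 2) : ℝ) := by
        apply mul_le_mul_of_nonneg_left _ (by positivity)
        apply Real.rpow_le_rpow_of_exponent_le hnr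
        linarith
    _ ≤ 4 * C * ((s : ℝ) / 16) ^ (-(1 / 2) : ℝ) := by
        apply mul_le_mul_of_nonneg_left _ (by positivity)
        apply Real.rpow_le_rpow_of_nonpos (by positivity) _ (by norm_num)
        rw [div_le_iff₀ (by norm_num)]
        have : (s : ℝ) ≤ 16 * nn s j := by exact_mod_cast g2
        linarith
    _ = 4 * C * (4 * (s : ℝ) ^ (-(1 / 2) : ℝ)) := by
        congr 1
        rw [Real.div_rpow hsp.le (by norm_num)]
        have : (16 : ℝ) ^ (-(1 / 2) : ℝ) = 1 / 4 := by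
          rw [Real.rpow_neg (by norm_num), show (16 : ℝ) = 4 ^ (2 : ℝ) by norm_num,
            ← Real.rpow_mul (by norm_num)]
          norm_num
        rw [this]
        ring
    _ = _ := by ring

/-- the crude total height -/
theorem sum_Hc (W : Whit O p n0 s J (tt κ) C u) (hC : 0 ≤ C) (hs : 64 ≤ s)
    (hκ1 : κ ≤ 1 / 240)
    (hpar : ∀ n : ℕ, s ≤ 16 * n → (n : ℝ) ^ (1 - 3 * κ) ≤ 2 * tt κ n) {R : ℕ}
    (hdF : ∀ x, dF O x ≤ R + 1) :
    ∑ q ∈ W.I, W.H q.1 q.2 ≤ J * (4 * C * R) := by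
  apply sum_sigma_le (f := fun j k => W.H j k)
  intro j
  obtain ⟨g1, g2⟩ := nn_ge hs j
  have hn1 : 1 ≤ nn s j := by omega
  have hnr : (1 : ℝ) ≤ (nn s j : ℝ) := by exact_mod_cast hn1
  rcases Finset.eq_empty_or_nonempty (W.act j) with he | ⟨k, hk⟩
  · rw [he, Finset.sum_empty]
    positivity
  · have h4 := (W.hn j k hk).2.1
    have h5 := hdF (W.x j k)
    have h6 : (nn s j : ℝ) ≤ R := by exact_mod_cast (by omega : nn s j ≤ R)
    obtain ⟨h0, h1, -⟩ := lay_H W hC hs hpar j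
    refine h1.trans ?_
    apply mul_le_mul_of_nonneg_left _ (by positivity)
    refine le_trans ?_ h6
    calc (nn s j : ℝ) ^ (2 / 9 + 6 * κ) ≤ (nn s j : ℝ) ^ (1 : ℝ) :=
          Real.rpow_le_rpow_of_exponent_le hnr (by linarith)
      _ = _ := Real.rpow_one _

/-- the sum of `H n^{-1/20} μ` -/
theorem sum_B (W : Whit O p n0 s J (tt κ) C u) (hC : 0 ≤ C) (hs : 64 ≤ s) (hκ : 0 ≤ κ)
    (hκ1 : κ ≤ 1 / 240)
    (hpar : ∀ n : ℕ, s ≤ 16 * n → (n : ℝ) ^ (1 - 3 * κ) ≤ 2 * tt κ n) (hn0 : 1 ≤ n0)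
    (hsM : 33 * s ≤ capM n0 0) {C0 Λ : ℝ} (hC0 : 0 ≤ C0) (hΛ : 0 ≤ Λ) :
    ∑ q ∈ W.I, W.H q.1 q.2 * (nn s q.1 : ℝ) ^ (-(1 / 20) : ℝ) *
      ((if dn p (W.x q.1 q.2) ≤ n0 + nn s q.1 then 9 * C0 * ((nn s q.1 : ℝ) / n0) ^ 2 else 0) +
        (if 3 * nn s q.1 ≤ s then Λ else 0)) ≤
      J * (72 * C * C0 * (s : ℝ) ^ (-(1 / 40) : ℝ) + 4 * C * Λ * (s : ℝ) ^ (6 * κ)) := by
  apply sum_sigma_le (f := fun j k => W.H j k * (nn s j : ℝ) ^ (-(1 / 20) : ℝ) *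
      ((if dn p (W.x j k) ≤ n0 + nn s j then 9 * C0 * ((nn s j : ℝ) / n0) ^ 2 else 0) +
        (if 3 * nn s j ≤ s then Λ else 0)))
  intro j
  obtain ⟨g1, g2⟩ := nn_ge hs j
  have hn1 : 1 ≤ nn s j := by omega
  have hnr : (1 : ℝ) ≤ (nn s j : ℝ) := by exact_mod_cast hn1
  have hnp : (0 : ℝ) < (nn s j : ℝ) := by linarith
  have hn0r : (0 : ℝ) < n0 := by exact_mod_cast hn0
  have hsp : (0 : ℝ) < s := by
    have : 0 < s := by omega
    exact_mod_cast this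
  obtain ⟨h0, -, h1⟩ := lay_H W hC hs hpar j
  set n := nn s j with hn
  have e1 : ∑ k ∈ W.act j, W.H j k * (n : ℝ) ^ (-(1 / 20) : ℝ) *
      ((if dn p (W.x j k) ≤ n0 + n then 9 * C0 * ((n : ℝ) / n0) ^ 2 else 0) +
        (if 3 * n ≤ s then Λ else 0)) =
      (∑ k ∈ (W.act j).filter (fun k => dn p (W.x j k) ≤ n0 + n), W.H j k) *
        ((n : ℝ) ^ (-(1 / 20) : ℝ) * (9 * C0 * ((n : ℝ) / n0) ^ 2)) +
      (∑ k ∈ W.act j, W.H j k) * ((n : ℝ) ^ (-(1 / 20) : ℝ) * (if 3 * n ≤ s then Λ else 0)) := by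
    rw [Finset.sum_filter, Finset.sum_mul, Finset.sum_mul, ← Finset.sum_add_distrib]
    refine Finset.sum_congr rfl (fun k _ => ?_)
    split_ifs <;> ring
  rw [e1]
  apply add_le_add
  · have hN0 : 0 ≤ ∑ k ∈ (W.act j).filter (fun k => dn p (W.x j k) ≤ n0 + n), W.H j k :=
      Finset.sum_nonneg (fun k hk => (W.hn j k (Finset.mem_filter.1 hk).1).2.2.1)
    have h2 := div_t hn1 hN0 (hpar _ g2) (W.near j)
    calc _ ≤ 4 * (C * (n0 : ℝ) ^ 2) * (n : ℝ) ^ (-2 + 6 * κ) *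
          ((n : ℝ) ^ (-(1 / 20) : ℝ) * (9 * C0 * ((n : ℝ) / n0) ^ 2)) :=
          mul_le_mul_of_nonneg_right h2 (by positivity)
      _ = 36 * C * C0 * ((n : ℝ) ^ (-2 + 6 * κ) * (n : ℝ) ^ (-(1 / 20) : ℝ) * (n : ℝ) ^ 2) := by
          rw [div_pow]
          field_simp
          ring
      _ = 36 * C * C0 * (n : ℝ) ^ (-(1 / 20) + 6 * κ) := by
          rw [← Real.rpow_natCast, ← Real.rpow_add hnp, ← Real.rpow_add hnp]
          congr 2; push_cast; ring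
      _ ≤ 36 * C * C0 * (n : ℝ) ^ (-(1 / 40) : ℝ) := by
          apply mul_le_mul_of_nonneg_left _ (by positivity)
          apply Real.rpow_le_rpow_of_exponent_le hnr
          linarith
      _ ≤ 36 * C * C0 * ((s : ℝ) / 16) ^ (-(1 / 40) : ℝ) := by
          apply mul_le_mul_of_nonneg_left _ (by positivity)
          apply Real.rpow_le_rpow_of_nonpos (by positivity) _ (by norm_num)
          rw [div_le_iff₀ (by norm_num)]
          have : (s : ℝ) ≤ 16 * n := by exact_mod_cast g2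
          linarith
      _ ≤ 36 * C * C0 * (2 * (s : ℝ) ^ (-(1 / 40) : ℝ)) := by
          apply mul_le_mul_of_nonneg_left _ (by positivity)
          rw [Real.div_rpow hsp.le (by norm_num), div_le_iff₀ (by positivity)]
          have : (1 : ℝ) ≤ 2 * (16 : ℝ) ^ (-(1 / 40) : ℝ) := by
            rw [Real.rpow_neg (by norm_num)]
            have h16 : (16 : ℝ) ^ (1 / 40 : ℝ) ≤ 2 := by
              calc (16 : ℝ) ^ (1 / 40 : ℝ) ≤ (16 : ℝ) ^ (1 / 4 : ℝ) :=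
                    Real.rpow_le_rpow_of_exponent_le (by norm_num) (by norm_num)
                _ = 2 := by
                    rw [show (16 : ℝ) = 2 ^ (4 : ℝ) by norm_num, ← Real.rpow_mul (by norm_num)]
                    norm_num
            rw [← div_eq_mul_inv, le_div_iff₀ (by positivity)]
            linarith
          have hsx : 0 ≤ (s : ℝ) ^ (-(1 / 40) : ℝ) := by positivity
          calc (s : ℝ) ^ (-(1 / 40) : ℝ) = (s : ℝ) ^ (-(1 / 40) : ℝ) * 1 := (mul_one _).symm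
            _ ≤ (s : ℝ) ^ (-(1 / 40) : ℝ) * (2 * (16 : ℝ) ^ (-(1 / 40) : ℝ)) :=
                mul_le_mul_of_nonneg_left this hsx
            _ = _ := by ring
      _ = _ := by ring
  · split_ifs with h3
    · have h4 := h1 (by omega)
      have h5 : (n : ℝ) ^ (-(1 / 20) : ℝ) ≤ 1 :=
        Real.rpow_le_one_of_one_le_of_nonpos hnr (by norm_num)
      calc (∑ k ∈ W.act j, W.H j k) * ((n : ℝ) ^ (-(1 / 20) : ℝ) * Λ)
          ≤ (4 * C * (n : ℝ) ^ (6 * κ)) * (1 * Λ) := by gcongr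
        _ ≤ (4 * C * (s : ℝ) ^ (6 * κ)) * (1 * Λ) := by
            apply mul_le_mul_of_nonneg_right _ (by positivity)
            apply mul_le_mul_of_nonneg_left _ (by positivity)
            apply Real.rpow_le_rpow hnp.le _ (by positivity)
            exact_mod_cast (by omega : n ≤ s)
        _ = _ := by ring
    · rw [mul_zero, mul_zero]
      positivity

end

end Vale.Agent.P155.E4
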