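import Vale.Agent.P155.E4.Num
import Vale.Agent.P155.E3.MESD

/-!
# P155, TIGHT S5: `ME2`, the scale-free conditional moments
-/

namespace Vale.Agent.P155.E4

open Finset Skel J E E3 Filter

/-- **ME2**: for any exploration `X`, any `X`-unexplored domain `O` with connected complement and
any smooth source `φ` at a scale `n0 ≥ R^{a1}` around a point `p0 ∉ O`, the field `h(Δ(χu))`,
`u = G_O φ`, `χ` the cut-off at distance `R^a`, has conditional mean `0` and conditional variance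
`(2/π)⟨φ, G_O φ⟩`, up to a power of `R`; the exceptional weight `B` does not depend on
`X, O, p0, n0, φ`. -/
def ME2 : Prop := ∀ C0 p a a1 : ℝ, 0 < a → 4 * a ≤ a1 → a1 ≤ 1 → ∃ c > (0 : ℝ), ∃ C : ℝ, 0 ≤ C ∧
  ∃ R0 : ℕ, 1 ≤ R0 ∧ ∀ R : ℕ, R0 ≤ R → ∀ T : Temp, Fits T R → ∃ B : Conf → ℝ,
  (∀ ω, 0 ≤ B ω) ∧ Ex T.V B ≤ C * (R : ℝ) ^ (-p) ∧
  ∀ X : Expl, IsExpl T.V X → ∀ ω ∈ DD T.V, ∀ (O : Set Pt) (p0 : Pt) (n0 : ℕ) (φ u : Pt → ℝ),
  O ⊆ T.faceSet → CP O → p0 ∉ O →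
  (∀ v : Pt, (∀ f : Pt, v.1 - 1 ≤ f.1 → f.1 ≤ v.1 → v.2 - 1 ≤ f.2 → f.2 ≤ v.2 → f ∈ O) →
      v ∈ (X ω).1 ∧ v ∈ (X ω).2) →
  (R : ℝ) ^ a1 ≤ n0 →
  IsBump p0 n0 (C0 / (n0 : ℝ) ^ 2) φ → IsGreen O φ u →
    |cEx T.V X (fun ω' => hf ω' (lap (fun y => G45.cutf O ⌈(R : ℝ) ^ a⌉₊ y * u y))) ω| ≤
      C * (R : ℝ) ^ (-c) + cEx T.V X B ω ∧
    |cEx T.V X (fun ω' => (hf ω' (lap (fun y => G45.cutf O ⌈(R : ℝ) ^ a⌉₊ y * u y))) ^ 2) ω -
        2 / Real.pi * pair φ u| ≤ C * (R : ℝ) ^ (-c) + cEx T.V X B ω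

/-- the cut-off used in `ME2` is a cut-off in the sense of `IsCut` -/
theorem cut_ok {O : Set Pt} (hO : O.Finite) {a : ℝ} {R : ℕ} (h : 8 ≤ ⌈(R : ℝ) ^ a⌉₊) :
    IsCut O ⌈(R : ℝ) ^ a⌉₊ (32 ^ 4) (G45.cutf O ⌈(R : ℝ) ^ a⌉₊) :=
  isCut_cutf hO.infinite_compl.nonempty h

theorem kk1 (x : ℝ) (hx : 0 ≤ x) : 11200 * x ≤ 256000000 * (x + 1) ^ 2 := by nlinarith

theorem kk2 (x : ℝ) (hx : 0 ≤ x) : 256000000 * x ^ 2 ≤ 256000000 * (x + 1) ^ 2 := by nlinarith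

theorem scales_ok {R a a1 : ℝ} {s n0 : ℕ} (hRr : 1 ≤ R) (ha : 0 < a) (haa : 4 * a ≤ a1)
    (hn0 : R ^ a1 ≤ n0) (hs : s = ⌈R ^ a⌉₊) (g3 : (9 ^ 10 : ℝ) ≤ R ^ a) :
    9 ^ 10 ≤ n0 ∧ 33 * s ≤ capM n0 0 ∧ 8 * s ≤ n0 := by
  have hR0 : 0 < R := by linarith
  obtain ⟨hsl, hsu⟩ := s_bounds hRr ha.le hs
  have hRa1 : R ^ (4 * a) ≤ n0 :=
    (Real.rpow_le_rpow_of_exponent_le hRr haa).trans hn0
  have hRa4 : R ^ (4 * a) = R ^ a * R ^ (3 * a) := by
    rw [← Real.rpow_add hR0]; congr 1; ring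
  have hn9 : 9 ^ 10 ≤ n0 := by
    have h1 : (9 ^ 10 : ℝ) ≤ n0 := by
      refine le_trans ?_ hRa1
      rw [hRa4]
      have h2 : (1 : ℝ) ≤ R ^ (3 * a) := Real.one_le_rpow hRr (by positivity)
      calc (9 ^ 10 : ℝ) ≤ R ^ a := g3
        _ = R ^ a * 1 := (mul_one _).symm
        _ ≤ R ^ a * R ^ (3 * a) := mul_le_mul_of_nonneg_left h2 (by positivity)
    exact_mod_cast h1
  have hcap : 33 * s ≤ capM n0 0 := by
    unfold capM
    rw [add_zero]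
    apply Nat.le_floor
    push_cast
    have h1 : (R ^ (4 * a)) ^ (9 / 10 : ℝ) ≤ (n0 : ℝ) ^ (9 / 10 : ℝ) :=
      Real.rpow_le_rpow (by positivity) hRa1 (by norm_num)
    refine le_trans ?_ h1
    rw [← Real.rpow_mul hR0.le]
    have h2 : R ^ a * R ^ a ≤ R ^ (4 * a * (9 / 10)) := by
      rw [← Real.rpow_add hR0]
      apply Real.rpow_le_rpow_of_exponent_le hRr
      linarith
    have h3 : (66 : ℝ) ≤ R ^ a := by
      refine le_trans ?_ g3
      norm_num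
    have h4 : 66 * R ^ a ≤ R ^ a * R ^ a := mul_le_mul_of_nonneg_right h3 (by positivity)
    linarith
  refine ⟨hn9, hcap, ?_⟩
  have h1 := capM_nine hn9 0
  omega

theorem mul_half {δ R K1 : ℝ} (hR0 : 0 < R) (g1 : 2 * K1 ≤ R ^ δ) : K1 * R ^ (-δ) ≤ 1 / 2 := by
  rw [Real.rpow_neg hR0.le, ← div_eq_mul_inv, div_le_iff₀ (by positivity)]
  linarith

theorem me2 (hI : E_incr) (hM : E_meas) (hL : E_loc) : ME2 := by
  classical
  intro C0 p a a1 ha haa ha1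
  by_cases hC0 : 0 ≤ C0
  swap
  · refine ⟨1, one_pos, 0, le_rfl, 1, le_rfl, fun R hR1 T _ =>
      ⟨fun _ => 0, fun _ => le_rfl, ?_, fun X _ ω _ O p0 n0 φ u _ _ _ _ hn0 hφ => ?_⟩⟩
    · rw [zero_mul]
      exact Ex_le_const le_rfl (fun _ _ => le_rfl)
    · exfalso
      have h1 := IsBump.nonneg hφ
      have hRr : (1 : ℝ) ≤ R := by exact_mod_cast hR1
      have h3 : (1 : ℝ) ≤ (R : ℝ) ^ a1 := Real.one_le_rpow hRr (by linarith)
      have h2 : C0 / (n0 : ℝ) ^ 2 < 0 := by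
        apply div_neg_of_neg_of_pos (not_le.1 hC0)
        have : (0 : ℝ) < n0 := by linarith
        positivity
      linarith
  have ha4 : a ≤ 1 / 4 := by linarith
  obtain ⟨β, hβ, hSD, hOut⟩ := G1.decay
  obtain ⟨A, hA, hH⟩ := G45.harnack_one hβ (by norm_num) hSD
  obtain ⟨Dv, hDv, hV⟩ := G45.visits hβ (by norm_num) hSD
  obtain ⟨γ1, hγ1, hγ11, hpot⟩ := pot_meso
  obtain ⟨Cd, hCd, hpot⟩ := hpot C0 hC0
  obtain ⟨γ2, hγ2, hγ21, hmm⟩ := mass_meso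
  obtain ⟨Mm, hMm, hmm⟩ := hmm C0 (32 ^ 4) hC0
  obtain ⟨CW, hCW, hW⟩ := exists_whit hA hH hDv hV hC0 hCd
  set γ := min γ1 γ2 with hγdef
  have hγ : 0 < γ := lt_min hγ1 hγ2
  have hγ1' : γ ≤ γ1 := min_le_left _ _
  have hγ2' : γ ≤ γ2 := min_le_right _ _
  have hγle : γ ≤ 1 := hγ1'.trans hγ11
  set δ : ℝ := a * γ / 100 with hδdef
  have hδ : 0 < δ := by positivity
  have hδa : δ ≤ a / 100 := by
    rw [hδdef]
    apply div_le_div_of_nonneg_right _ (by norm_num)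
    calc a * γ ≤ a * 1 := mul_le_mul_of_nonneg_left hγle ha.le
      _ = a := mul_one a
  have hδ1 : δ ≤ 1 / 400 := by linarith
  set κ : ℝ := δ / 8 with hκdef
  have hκ : 0 < κ := by positivity
  have hκ1 : κ ≤ 1 / 3200 := by rw [hκdef]; linarith
  obtain ⟨n1, CE, hCE, hE⟩ := loc_events hL (κ := κ) (a := a / 2) (p := p + 13) hκ
    (by linarith) (by linarith)
  obtain ⟨R1, hR11, hpar⟩ := params hκ (show κ ≤ a / 40 by rw [hκdef]; linarith)
    (show κ ≤ 1 / 200 by linarith) (show a ≤ 1 / 2 by linarith)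
  set KJ : ℝ := 2 * (1 + 8 / δ) with hKJ
  have hKJ0 : 0 ≤ KJ := by positivity
  set K1 : ℝ := CE * (16 * KJ * CW) with hK1
  have hK10 : 0 ≤ K1 := by positivity
  set K2 : ℝ := CE * (KJ * (72 * CW * C0 + 32 * CW * Mm)) with hK2
  have hK20 : 0 ≤ K2 := by positivity
  set K5 : ℝ := 9 * C0 * Cd + Cd * Mm with hK5
  have hK50 : 0 ≤ K5 := by positivity
  set KD : ℝ := 9 * C0 * Cd + K5 * 4 with hKD
  have hKD0 : 0 ≤ KD := by positivity
  set KB : ℝ := 256000000 * (CW + 1) ^ 2 with hKB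
  have hKB0 : 0 ≤ KB := by positivity
  set KK : ℝ := K1 * (2 + 2 * KD) + 2 * K2 + K5 * 4 with hKK
  have hKK0 : 0 ≤ KK := by positivity
  -- large `R`
  have ev1 : ∀ᶠ R : ℕ in atTop, 2 * K1 ≤ (R : ℝ) ^ δ :=
    ((tendsto_rpow_atTop hδ).comp tendsto_natCast_atTop_atTop).eventually_ge_atTop _
  have ev2 : ∀ᶠ R : ℕ in atTop, (n1 : ℝ) ≤ (R : ℝ) ^ (a / 2) :=
    ((tendsto_rpow_atTop (by linarith)).comp tendsto_natCast_atTop_atTop).eventually_ge_atTop _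
  have ev3 : ∀ᶠ R : ℕ in atTop, (9 ^ 10 : ℝ) ≤ (R : ℝ) ^ a :=
    ((tendsto_rpow_atTop ha).comp tendsto_natCast_atTop_atTop).eventually_ge_atTop _
  obtain ⟨R2, hR2⟩ := eventually_atTop.1 (ev1.and (ev2.and ev3))
  refine ⟨δ, hδ, 18 * KB * CE + K1 + KK, by positivity, max R1 R2,
    le_trans hR11 (le_max_left _ _), ?_⟩
  intro R hRR T hfit
  obtain ⟨g1, g2, g3⟩ := hR2 R ((le_max_right _ _).trans hRR)
  have hR1 : 1 ≤ R := hR11.trans ((le_max_left _ _).trans hRR)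
  have hRr : (1 : ℝ) ≤ R := by exact_mod_cast hR1
  have hR0 : (0 : ℝ) < R := by linarith
  obtain ⟨hs64, -, -, -, hpar⟩ := hpar R ((le_max_left _ _).trans hRR)
  set s := ⌈(R : ℝ) ^ a⌉₊ with hs
  obtain ⟨G, hGp, hGg⟩ := hE R T hR1 hfit
  have hfin : T.faceSet.Finite := fs_of_sub_box hfit
  obtain ⟨hsl, hsu⟩ := s_bounds hRr ha.le hs
  have hLG : LocGood T κ CE R G (fun n => s ≤ 16 * n) := by
    intro x n hn
    apply hGg x n
    have := (hpar n hn).1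
    refine ⟨?_, this⟩
    have : (n1 : ℝ) ≤ n := g2.trans this
    exact_mod_cast this
  refine ⟨fun ω => KB * (R : ℝ) ^ 10 * badW R G ω, fun ω => ?_, ?_, ?_⟩
  · exact mul_nonneg (by positivity) (badW_nonneg _ _ _)
  · have h1 : Ex T.V (fun ω => KB * (R : ℝ) ^ 10 * badW R G ω) =
        KB * (R : ℝ) ^ 10 * Ex T.V (badW R G) := avg_mul_left _ _ _
    rw [h1]
    have h2 := Ex_badW (R := R) hGp
    have e1 : (2 * (R : ℝ) + 1) ^ 2 ≤ (3 * R) ^ 2 :=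
      pow_le_pow_left₀ (by positivity) (by linarith) 2
    have e2 : (R : ℝ) + 1 ≤ 2 * R := by linarith
    calc KB * (R : ℝ) ^ 10 * Ex T.V (badW R G)
        ≤ KB * (R : ℝ) ^ 10 * ((3 * (R : ℝ)) ^ 2 * ((2 * R) * (CE * (R : ℝ) ^ (-(p + 13))))) := by
          apply mul_le_mul_of_nonneg_left _ (by positivity)
          refine h2.trans ?_
          gcongr
      _ = 18 * KB * CE * ((R : ℝ) ^ (13 : ℕ) * (R : ℝ) ^ (-(p + 13))) := by ring
      _ = 18 * KB * CE * (R : ℝ) ^ (-p) := by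
          rw [← Real.rpow_natCast, ← Real.rpow_add hR0]
          congr 2; push_cast; ring
      _ ≤ _ := by
          apply mul_le_mul_of_nonneg_right _ (by positivity)
          linarith
  · intro X hX ω hω O p0 n0 φ u hO hCP hp0 hin hn0 hφ hu
    have hOfin : O.Finite := hfin.subset hO
    have hOne : ∃ q, q ∉ O := hOfin.infinite_compl.nonempty
    obtain ⟨hn9, hcap, h8s⟩ := scales_ok hRr ha haa hn0 hs g3
    have hn01 : 1 ≤ n0 := by omega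
    have hn0r : (0 : ℝ) < n0 := by exact_mod_cast hn01
    have h2s : 2 * s ≤ capM n0 0 := by omega
    -- the partition
    have hφd : ∀ y, |φ y| ≤ dens C0 p0 n0 y := by
      intro y
      by_cases hy : y ∈ box p0 n0
      · exact (IsBump.abs_le hφ y).trans (le_dens hC0 hn01 (dn_le_iff.2 hy))
      · rw [hφ.1 y hy, abs_zero]
        exact dens_nonneg hC0 p0 n0 y
    obtain ⟨ub, hub, hub0, huub, hubCd, hubdec⟩ := hpot O p0 n0 φ u hOfin hCP hp0 hn01 hφd hu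
    have hdF : ∀ x, dF O x ≤ R + 1 := fun x =>
      (dF_mono hO hfin x).trans (dF_le_of_fits hfit x)
    obtain ⟨W⟩ := hW O p0 n0 s (nJ R) R (tt κ) φ u ub hOfin hCP
      (fun x hx => dn_le_iff.2 (hfit (hO hx))) hn9 hs64 h2s
      (fun n hn => ⟨(hpar n hn).2.1, (hpar n hn).2.2.1⟩)
      (fun z => (hdF z).trans ((nJ_pow R).trans (Nat.le_mul_of_pos_left _ (by omega))))
      hφ hu hub huub hubCd
    obtain ⟨m1, m2, -⟩ := hmm O p0 n0 s (G45.cutf O s) φ u hOfin hCP hp0 hn01 (by omega) h8s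
      (isCut_cutf hOne (by omega)) hφd hu
    have hsn : (s : ℝ) / n0 ≤ 1 := by
      rw [div_le_one hn0r]
      exact_mod_cast (by omega : s ≤ n0)
    have hr1 := ratio (γ := γ2) (c := 1) (δ := δ) hRr ha.le hs haa hn0 hγ2 hγ21 (by norm_num)
      (by norm_num) (by
        rw [hδdef]
        apply div_le_div_of_nonneg_right _ (by norm_num)
        exact mul_le_mul_of_nonneg_left hγ2' ha.le)
    have hr2 := ratio (γ := γ1) (c := 2) (δ := δ) hRr ha.le hs haa hn0 hγ1 hγ11 (by norm_num)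
      (by norm_num) (by
        rw [hδdef]
        apply div_le_div_of_nonneg_right _ (by norm_num)
        exact mul_le_mul_of_nonneg_left hγ1' ha.le)
    rw [one_mul] at hr1
    have hJ := nJ_pow_le (R := R) hR1 hδ
    have hS1 := num1 (CW := CW) hRr ha.le hs hδ hδa hκdef hJ hKJ0 hCW
    have hS2 := num2 (CW := CW) (C0 := C0) (Mm := Mm) hRr ha.le (by linarith) hs hδ
      (by linarith) hδa hκdef hJ hKJ0 hCW hC0 hMm hr1 (by positivity)
    have hS1' : CE * (16 * KJ * CW * (R : ℝ) ^ (-δ)) ≤ 1 / 2 := by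
      have e : CE * (16 * KJ * CW * (R : ℝ) ^ (-δ)) = K1 * (R : ℝ) ^ (-δ) := by rw [hK1]; ring
      rw [e]
      exact mul_half hR0 g1
    have hq1 : 4 * (R : ℝ) ^ (-(3 * (100 * δ))) ≤ 4 := by
      have : (R : ℝ) ^ (-(3 * (100 * δ))) ≤ 1 :=
        Real.rpow_le_one_of_one_le_of_nonpos hRr (by linarith)
      linarith
    obtain ⟨k1, k2⟩ := me_atom hI hM hX hω hR1 hfit hO hin W hCE hCW hLG hs64
      (fun n hn => ⟨by
        have := (hpar n hn).2.2.1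
        unfold tt
        omega, (hpar n hn).2.2.2⟩) hκ.le (by linarith) hn01 hcap hC0 hCd hγ1 hMm hφ hu
      (fun x => (huub x).trans (hubCd x)) (fun x => (huub x).trans (hubdec x)) m1
      (fun z => m2 z s le_rfl (by omega)) (nJ_le_R hR1) hS1 hS2 hS1' hr2 hq1
    have hBB0 : 0 ≤ cEx T.V X (badW R G) ω := cEx_nonneg (fun _ _ => badW_nonneg _ _ _)
    have hcB : cEx T.V X (fun ω => KB * (R : ℝ) ^ 10 * badW R G ω) ω =
        KB * (R : ℝ) ^ 10 * cEx T.V X (badW R G) ω := cEx_const_mul _ _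
    rw [hcB]
    have hRc0 : 0 ≤ (R : ℝ) ^ (-δ) := by positivity
    have hKBCE : 0 ≤ 18 * KB * CE := by positivity
    have hCS : CE * (16 * KJ * CW * (R : ℝ) ^ (-δ)) ≤ K1 * (R : ℝ) ^ (-δ) :=
      le_of_eq (by rw [hK1]; ring)
    have hq : 4 * (R : ℝ) ^ (-(3 * (100 * δ))) ≤ 4 * (R : ℝ) ^ (-δ) := by
      apply mul_le_mul_of_nonneg_left _ (by norm_num)
      apply Real.rpow_le_rpow_of_exponent_le hRr
      linarith
    constructor
    · refine fin1 k1 hCS ?_ ?_ hRc0 hBB0 rfl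
      · exact mul_le_mul (kk1 CW hCW) (pow_le_pow_right₀ hRr (by norm_num)) (by positivity) hKB0
      · linarith only [hKBCE, hKK0, hCW, hK10]
    · refine fin2 (C0 := 0) (K3 := K2) (K54 := K5 * 4)
        (L1 := CE * (KJ * (72 * CW * C0 + 32 * CW * Mm) * (R : ℝ) ^ (-δ)))
        (D := 2 + 2 * KD) (S := CE * (16 * KJ * CW * (R : ℝ) ^ (-δ))) (K1 := K1)
        (E5 := K5 * (4 * (R : ℝ) ^ (-(3 * (100 * δ))))) ?_ hCS (by positivity) le_rfl ?_ ?_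
        (k1 := 256000000 * CW ^ 2 * (R : ℝ) ^ 10) ?_ ?_ hRc0 hBB0 rfl
      · rw [zero_mul, zero_add]
        exact k2
      · apply le_of_eq; rw [hK2]; ring
      · calc K5 * (4 * (R : ℝ) ^ (-(3 * (100 * δ)))) ≤ K5 * (4 * (R : ℝ) ^ (-δ)) :=
              mul_le_mul_of_nonneg_left hq hK50
          _ = _ := by ring
      · exact mul_le_mul_of_nonneg_right (kk2 CW hCW) (by positivity)
      · rw [hKK]
        linarith only [hKBCE, hCW, hK10]

end Vale.Agent.P155.E4
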