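import Vale.Agent.P155.E4.Decay

/-!
# P155, TIGHT S5: potential package and mass bounds of the layer function at an arbitrary scale
-/

namespace Vale.Agent.P155.E4

open Finset Vale.Agent.P155 Vale.Agent.P155.G45 Vale.Agent.P155.J Vale.Agent.P155.H12
open Vale.Agent.P155.H904

/-- **Potential package.** -/
theorem pot_meso : ∃ γ : ℝ, 0 < γ ∧ γ ≤ 1 ∧ ∀ C0 : ℝ, 0 ≤ C0 → ∃ Cd : ℝ, 0 ≤ Cd ∧
    ∀ (O : Set Pt) (p : Pt) (n0 : ℕ) (φ u : Pt → ℝ), O.Finite → CPr O → p ∉ O → 1 ≤ n0 →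
      (∀ y, |φ y| ≤ dens C0 p n0 y) → IsGreen O φ u →
      ∃ ub : Pt → ℝ, IsGreen O (dens C0 p n0) ub ∧ (∀ y, 0 ≤ ub y) ∧ (∀ y, |u y| ≤ ub y) ∧
        (∀ y, ub y ≤ Cd) ∧ (∀ y, ub y ≤ Cd * ((dF O y : ℝ) / n0) ^ γ) := by
  obtain ⟨β, hβ, hSD, hOut⟩ := G1.decay
  obtain ⟨D, hD, hdec⟩ := decay_meso hβ (by norm_num) hSD
  obtain ⟨D2, hD2, hsup⟩ := dens_sup hβ (by norm_num) hSD hOut
  refine ⟨min 1 (β / 2), lt_min one_pos (by positivity), min_le_left _ _, fun C0 hC0 => ?_⟩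
  refine ⟨D2 * C0 + D * (8 * C0 + 1 + D2 * C0), by positivity, ?_⟩
  intro O p n0 φ u hO hCP hp hn hφ hu
  obtain ⟨ub, hub⟩ := exists_green hO (dens C0 p n0)
  have hub0 := green_nonneg hO hub (fun y _ => dens_nonneg hC0 p n0 y)
  have hs := hsup O hO hCP p n0 C0 ub hp hn hC0 hub
  have hd := hdec O hO hCP n0 (8 * C0) (D2 * C0) (dens C0 p n0) ub hn (by positivity)
    (by positivity) (fun y => by
      rw [abs_of_nonneg (dens_nonneg hC0 p n0 y)]
      exact dens_le hC0 p hn y) hub (fun y => by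
      rw [abs_of_nonneg (hub0 y)]
      exact hs y)
  refine ⟨ub, hub, hub0, abs_green_le hO hu hub (fun y _ => hφ y), fun y => ?_, fun y => ?_⟩
  · have h1 : 0 ≤ D * (8 * C0 + 1 + D2 * C0) := by positivity
    linarith [hs y]
  · have h1 := hd y
    rw [abs_of_nonneg (hub0 y)] at h1
    refine h1.trans ?_
    apply mul_le_mul_of_nonneg_right _ (by positivity)
    have : 0 ≤ D2 * C0 := by positivity
    linarith

open Classical in
/-- The mass which a harmonic measure receives from the density. -/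
theorem harm_dens {C β : ℝ} (hβ : 0 < β) (hβ1 : β ≤ 1) (hC1 : 1 ≤ C) (hOut : OutDecay C β)
    {O : Set Pt} (hO : O.Finite) (hCP : CPr O) {C0 : ℝ} (hC0 : 0 ≤ C0) {p : Pt} {n0 : ℕ}
    (hn : 1 ≤ n0) {q : Pt} (hq : q ∉ O) {ρ : ℕ} (hρ : 1 ≤ ρ)
    {w : Pt → ℝ} (hw0 : ∀ x, 0 ≤ w x) (hw1 : ∀ x, w x ≤ 1) (hoff : ∀ x, x ∉ O → w x = 0)
    (hwl : ∀ x ∈ O, ρ < dn q x → lap w x = 0) :
    ∑ x ∈ hO.toFinset, dens C0 p n0 x * w x ≤ 768 * C * C0 * ((ρ : ℝ) / n0) ^ β := by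
  have hCn : 0 ≤ C := by linarith
  have hn0 : (1 : ℝ) ≤ n0 := by exact_mod_cast hn
  have hρ1 : (1 : ℝ) ≤ ρ := by exact_mod_cast hρ
  -- pointwise bound
  have hpt : ∀ x, w x ≤ C * (((ρ : ℝ) + 1) ^ β * ((dn q x : ℝ) + 1) ^ (-β)) := by
    intro x
    have hdiv : ((ρ : ℝ) + 1) ^ β * ((dn q x : ℝ) + 1) ^ (-β) =
        (((ρ : ℝ) + 1) / ((dn q x : ℝ) + 1)) ^ β := by
      rw [Real.div_rpow (by positivity) (by positivity), Real.rpow_neg (by positivity),
        div_eq_mul_inv]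
    rw [hdiv]
    rcases Nat.lt_or_ge ρ (dn q x) with h | h
    · have := hOut O q ρ 1 w hO (hCP q hq) hoff hwl
        (fun y _ => by rw [abs_of_nonneg (hw0 y)]; exact hw1 y) x h
      rw [abs_of_nonneg (hw0 x), mul_one] at this
      exact this
    · have h' : (dn q x : ℝ) ≤ ρ := by exact_mod_cast h
      have h1 : 1 ≤ (((ρ : ℝ) + 1) / ((dn q x : ℝ) + 1)) ^ β := by
        apply Real.one_le_rpow _ hβ.le
        rw [le_div_iff₀ (by positivity)]
        linarith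
      have := hw1 x
      nlinarith
  set e : ℝ := ((ρ : ℝ) + 1) ^ β * ((n0 : ℝ) + 1) ^ (-β) with he
  have he0 : 0 ≤ e := by positivity
  -- near part
  set S := hO.toFinset with hS
  have h1 : ∑ x ∈ S.filter (fun x => dn q x ≤ n0), dens C0 p n0 x * w x ≤ 256 * C0 * C * e := by
    calc ∑ x ∈ S.filter (fun x => dn q x ≤ n0), dens C0 p n0 x * w x
        ≤ ∑ x ∈ S.filter (fun x => dn q x ≤ n0),
            8 * C0 / (n0 : ℝ) ^ 2 * (C * (((ρ : ℝ) + 1) ^ β * ((dn q x : ℝ) + 1) ^ (-β))) := by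
          apply Finset.sum_le_sum
          intro x _
          exact mul_le_mul (dens_le hC0 p hn x) (hpt x) (hw0 x) (by positivity)
      _ ≤ ∑ x ∈ box q n0,
            8 * C0 / (n0 : ℝ) ^ 2 * (C * (((ρ : ℝ) + 1) ^ β * ((dn q x : ℝ) + 1) ^ (-β))) := by
          apply Finset.sum_le_sum_of_subset_of_nonneg
          · intro x hx
            exact G45.mem_box.2 (Finset.mem_filter.1 hx).2
          · intro x _ _
            positivity
      _ = 8 * C0 / (n0 : ℝ) ^ 2 * (C * (((ρ : ℝ) + 1) ^ β *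
            ∑ x ∈ box q n0, ((dn q x : ℝ) + 1) ^ (-β))) := by
          rw [← Finset.mul_sum, ← Finset.mul_sum, ← Finset.mul_sum]
      _ ≤ 8 * C0 / (n0 : ℝ) ^ 2 * (C * (((ρ : ℝ) + 1) ^ β * (8 * ((n0 : ℝ) + 1) ^ (2 - β)))) := by
          gcongr
          exact sum_box_rpow hβ1 q n0
      _ = 64 * C0 / (n0 : ℝ) ^ 2 * C * (((n0 : ℝ) + 1) ^ 2 * e) := by
          have hpow : ((n0 : ℝ) + 1) ^ (2 - β) = ((n0 : ℝ) + 1) ^ 2 * ((n0 : ℝ) + 1) ^ (-β) := by
            rw [sub_eq_add_neg, Real.rpow_add (by positivity)]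
            norm_num
          rw [hpow, he]
          ring
      _ ≤ 64 * C0 / (n0 : ℝ) ^ 2 * C * ((4 * (n0 : ℝ) ^ 2) * e) := by
          apply mul_le_mul_of_nonneg_left _ (by positivity)
          apply mul_le_mul_of_nonneg_right _ he0
          nlinarith
      _ = 256 * C0 * C * e := by field_simp; ring
  have h2 : ∑ x ∈ S.filter (fun x => ¬ dn q x ≤ n0), dens C0 p n0 x * w x ≤ 128 * C0 * C * e := by
    calc ∑ x ∈ S.filter (fun x => ¬ dn q x ≤ n0), dens C0 p n0 x * w x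
        ≤ ∑ x ∈ S.filter (fun x => ¬ dn q x ≤ n0), dens C0 p n0 x * (C * e) := by
          apply Finset.sum_le_sum
          intro x hx
          have hlt := (Finset.mem_filter.1 hx).2
          have hlt' : (n0 : ℝ) ≤ dn q x := by
            have : n0 ≤ dn q x := by omega
            exact_mod_cast this
          apply mul_le_mul_of_nonneg_left _ (dens_nonneg hC0 p n0 x)
          refine (hpt x).trans ?_
          apply mul_le_mul_of_nonneg_left _ hCn
          apply mul_le_mul_of_nonneg_left _ (by positivity)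
          exact Real.rpow_le_rpow_of_nonpos (by positivity) (by linarith) (by linarith)
      _ = (∑ x ∈ S.filter (fun x => ¬ dn q x ≤ n0), dens C0 p n0 x) * (C * e) := by
          rw [Finset.sum_mul]
      _ ≤ (128 * C0) * (C * e) :=
          mul_le_mul_of_nonneg_right (dens_mass hC0 p hn _) (by positivity)
      _ = _ := by ring
  have hqle : e ≤ 2 * ((ρ : ℝ) / n0) ^ β := by
    have hdiv : e = (((ρ : ℝ) + 1) / ((n0 : ℝ) + 1)) ^ β := by
      rw [he, Real.div_rpow (by positivity) (by positivity), Real.rpow_neg (by positivity),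
        div_eq_mul_inv]
    rw [hdiv]
    calc (((ρ : ℝ) + 1) / ((n0 : ℝ) + 1)) ^ β ≤ (2 * ((ρ : ℝ) / n0)) ^ β := by
          apply Real.rpow_le_rpow (by positivity) _ hβ.le
          rw [← mul_div_assoc, div_le_div_iff₀ (by positivity) (by positivity)]
          nlinarith
      _ = 2 ^ β * ((ρ : ℝ) / n0) ^ β := Real.mul_rpow (by norm_num) (by positivity)
      _ ≤ 2 * ((ρ : ℝ) / n0) ^ β := by
          apply mul_le_mul_of_nonneg_right _ (by positivity)
          calc (2 : ℝ) ^ β ≤ 2 ^ (1 : ℝ) :=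
                Real.rpow_le_rpow_of_exponent_le (by norm_num) hβ1
            _ = 2 := Real.rpow_one 2
  have hsplit : ∑ x ∈ S, dens C0 p n0 x * w x =
      ∑ x ∈ S.filter (fun x => dn q x ≤ n0), dens C0 p n0 x * w x +
      ∑ x ∈ S.filter (fun x => ¬ dn q x ≤ n0), dens C0 p n0 x * w x := by
    rw [Finset.sum_filter_add_sum_filter_not]
  rw [hsplit]
  calc _ ≤ 256 * C0 * C * e + 128 * C0 * C * e := add_le_add h1 h2
    _ = 384 * C0 * C * e := by ring
    _ ≤ 384 * C0 * C * (2 * ((ρ : ℝ) / n0) ^ β) := by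
        apply mul_le_mul_of_nonneg_left hqle (by positivity)
    _ = _ := by ring

/-- Localized visits lemma for the density. -/
theorem visits_meso {C β : ℝ} (hβ : 0 < β) (hC : 0 ≤ C) (hSD : SupDecay C β)
    (hOut : OutDecay C β) : ∃ γ : ℝ, 0 < γ ∧ γ ≤ 1 ∧ ∃ D : ℝ, 0 < D ∧
    ∀ (O : Set Pt), O.Finite → CPr O → ∀ (p : Pt) (n0 : ℕ) (C0 : ℝ) (ub : Pt → ℝ),
      1 ≤ n0 → 0 ≤ C0 → IsGreen O (dens C0 p n0) ub →
      ∀ (z : Pt) (r ρ : ℕ), 1 ≤ r → r ≤ ρ → ∀ S : Finset Pt,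
      (∀ x ∈ S, dn z x ≤ ρ) → (∀ x ∈ S, dF O x ≤ 2 * r) →
      ∑ x ∈ S, ub x ≤ D * C0 * (r : ℝ) ^ 2 * ((ρ : ℝ) / n0) ^ γ := by
  classical
  obtain ⟨D, hD, hv⟩ := visits_local hβ hC hSD
  set γ := min β 1 with hγ
  have hγ0 : 0 < γ := lt_min hβ one_pos
  have hγ1 : γ ≤ 1 := min_le_right _ _
  have hOut' : OutDecay (C + 1) γ := by
    have h1 := hOut.mono hC (min_le_left β 1)
    intro O p ρ M u hO hc hoff hlap hM x hx
    have hM0 : 0 ≤ M := (abs_nonneg _).trans (hM p (by rw [dn_self]; exact Nat.zero_le _))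
    refine (h1 O p ρ M u hO hc hoff hlap hM x hx).trans ?_
    gcongr
    linarith
  refine ⟨γ, hγ0, hγ1, 4 * (D * (768 * (C + 1))), by positivity, ?_⟩
  intro O hO hCP p n0 C0 ub hn hC0 hub z r ρ hr hrρ S hSz hSd
  have hub0 := green_nonneg hO hub (fun y _ => dens_nonneg hC0 p n0 y)
  have hn1 : (1 : ℝ) ≤ n0 := by exact_mod_cast hn
  have hρ1 : (1 : ℝ) ≤ ρ := by exact_mod_cast (hr.trans hrρ)
  rcases S.eq_empty_or_nonempty with hSe | ⟨x0, hx0⟩
  · subst hSe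
    rw [Finset.sum_empty]
    positivity
  obtain ⟨q, hq, hqd⟩ := exists_dF (exists_notMem hO) x0
  obtain ⟨w, hw0, hw1, hwoff, hwl, hwone, hwsup⟩ := exists_harm hO q (4 * ρ)
  set S' := S.filter (· ∈ O) with hS'
  have hSS : ∑ x ∈ S, ub x = ∑ x ∈ S', ub x := by
    symm
    apply Finset.sum_subset (Finset.filter_subset _ _)
    intro x hxS hx
    apply hub.off
    intro hxO
    exact hx (Finset.mem_filter.2 ⟨hxS, hxO⟩)
  rw [hSS]
  have hq4 : ∀ x ∈ S, dn q x ≤ 4 * ρ := by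
    intro x hx
    have a1 := hSz x hx
    have a2 := hSz x0 hx0
    have a3 := hSd x0 hx0
    have a4 := dn_tri q x0 x
    have a5 := dn_tri x0 z x
    rw [dn_comm] at hqd
    rw [dn_comm x0 z] at a5
    omega
  have h1 := hv O hO hCP r hr S' (dens C0 p n0) ub w
    (fun x hx => hSd x (Finset.mem_filter.1 hx).1) hub
    (fun y _ => dens_nonneg hC0 p n0 y) hw0
    (fun x hx _ => hwsup x hx)
    (fun x hx => (hwone x (Finset.mem_filter.1 hx).2 (hq4 x (Finset.mem_filter.1 hx).1)).ge)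
  refine h1.trans ?_
  have h2 := harm_dens hγ0 hγ1 (by linarith : 1 ≤ C + 1) hOut' hO hCP hC0 (p := p) hn hq
    (ρ := 4 * ρ) (by omega) hw0 hw1 hwoff hwl
  have h3 : (((4 * ρ : ℕ) : ℝ) / n0) ^ γ ≤ 4 * ((ρ : ℝ) / n0) ^ γ := by
    push_cast
    rw [mul_div_assoc, Real.mul_rpow (by norm_num) (by positivity)]
    apply mul_le_mul_of_nonneg_right _ (by positivity)
    calc (4 : ℝ) ^ γ ≤ 4 ^ (1 : ℝ) := Real.rpow_le_rpow_of_exponent_le (by norm_num) hγ1
      _ = 4 := Real.rpow_one 4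
  calc D * (r : ℝ) ^ 2 * ∑ x ∈ hO.toFinset, dens C0 p n0 x * w x
      ≤ D * (r : ℝ) ^ 2 * (768 * (C + 1) * C0 * (4 * ((ρ : ℝ) / n0) ^ γ)) := by
        apply mul_le_mul_of_nonneg_left _ (by positivity)
        exact h2.trans (mul_le_mul_of_nonneg_left h3 (by positivity))
    _ = _ := by ring

/-- pointwise bound of the layer function -/
theorem fL_pt {C β : ℝ} (hβ : 0 < β) (hC : 0 ≤ C) (hSD : SupDecay C β) :
    ∃ A : ℝ, 1 ≤ A ∧ ∀ (O : Set Pt), O.Finite → ∀ (s : ℕ) (Cc C0 : ℝ) (χ φ u ub : Pt → ℝ) (p : Pt)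
      (n0 : ℕ), 1 ≤ s → 1 ≤ n0 → 8 * s ≤ n0 → 0 ≤ C0 → IsCut O s Cc χ → IsGreen O φ u →
      (∀ y, |φ y| ≤ dens C0 p n0 y) → IsGreen O (dens C0 p n0) ub → (∀ y, |u y| ≤ ub y) →
      ∀ x, fL O φ χ u x ≠ 0 → x ∈ O ∧ dF O x ≤ 2 * s ∧
        |fL O φ χ u x| ≤ A * (Cc + 1) * (ub x / s ^ 2 + dens C0 p n0 x) := by
  obtain ⟨A, hA, hfl⟩ := fL_bound hβ hC hSD
  refine ⟨400 * A, by linarith, ?_⟩
  intro O hO s Cc C0 χ φ u ub p n0 hs hn h8 hC0 hχ hu hφ hub hdom x h0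
  have hOq := exists_notMem hO
  obtain ⟨hxO, hx2⟩ := fL_supp hOq hs hχ hu h0
  refine ⟨hxO, hx2, ?_⟩
  have hCc := cut_C0_nonneg hχ
  have hub0 : ∀ y, 0 ≤ ub y := fun y => (abs_nonneg _).trans (hdom y)
  have hs0 : (0 : ℝ) < s := by exact_mod_cast hs
  have hd0 := dens_nonneg hC0 p n0 x
  rcases Nat.lt_or_ge (dF O x) s with h2 | h2
  · rw [fL_below hOq hχ hxO h2]
    have h3 : 0 ≤ ub x / (s : ℝ) ^ 2 := div_nonneg (hub0 x) (by positivity)
    have h4 : (1 : ℝ) ≤ 400 * A * (Cc + 1) := by nlinarith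
    calc |φ x| ≤ 1 * (ub x / s ^ 2 + dens C0 p n0 x) := by
          rw [one_mul]; linarith [hφ x]
      _ ≤ _ := mul_le_mul_of_nonneg_right h4 (by positivity)
  · -- flatten
    have hdb : ∀ y, dn x y < s → dens C0 p n0 x ≤ 2 * dens C0 p n0 y ∧
        dens C0 p n0 y ≤ 2 * dens C0 p n0 x := fun y hy => dens_doubling hC0 hn (by omega)
    have hlapub : ∀ y, dn x y < s → - lap ub y = dens C0 p n0 y := fun y hy =>
      hub.eq y (mem_of_lt_dF (x := x) (by omega))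
    obtain ⟨h', hh1, hh2, hh3⟩ := flatten (x := x) (r := s) (c := dens C0 p n0 x / 2) (Λ := 4)
      (h := ub) (by positivity) (by norm_num) hub0
      (fun y hy => by
        rw [hlapub y hy]
        linarith [(hdb y hy).1])
      (fun y hy => by
        rw [hlapub y hy]
        linarith [(hdb y hy).2])
    have h5 := hfl O s Cc χ φ u h' (4 * (dens C0 p n0 x / 2)) x hOq hs hχ hu h2 (by positivity)
      (fun y => (hdom y).trans (hh1 y)) hh3
      (fun y hy => by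
        refine (hφ y).trans ?_
        linarith [(hdb y hy).2])
    refine h5.trans ?_
    have h6 : h' x / (s : ℝ) ^ 2 ≤ 4 * (ub x / s ^ 2) := by
      rw [← mul_div_assoc]
      exact div_le_div_of_nonneg_right (hh2 x) (by positivity)
    have h7 : 0 ≤ ub x / (s : ℝ) ^ 2 := div_nonneg (hub0 x) (by positivity)
    calc 100 * A * (Cc + 1) * (h' x / s ^ 2 + 4 * (dens C0 p n0 x / 2))
        ≤ 100 * A * (Cc + 1) * (4 * (ub x / s ^ 2 + dens C0 p n0 x)) := by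
          apply mul_le_mul_of_nonneg_left _ (by positivity)
          linarith
      _ = _ := by ring

/-- **Mass bounds at an arbitrary scale.** -/
theorem mass_meso : ∃ γ : ℝ, 0 < γ ∧ γ ≤ 1 ∧ ∀ C0 Cc : ℝ, 0 ≤ C0 → ∃ M : ℝ, 0 ≤ M ∧
    ∀ (O : Set Pt) (p : Pt) (n0 s : ℕ) (χ φ u : Pt → ℝ), O.Finite → CPr O → p ∉ O → 1 ≤ n0 →
      1 ≤ s → 8 * s ≤ n0 → IsCut O s Cc χ → (∀ y, |φ y| ≤ dens C0 p n0 y) → IsGreen O φ u →
      (∀ S : Finset Pt, ∑ x ∈ S, |fL O φ χ u x| ≤ M) ∧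
      (∀ (z : Pt) (ρ : ℕ), s ≤ ρ → ρ ≤ n0 →
        ∑ x ∈ box z ρ, |fL O φ χ u x| ≤ M * ((ρ : ℝ) / n0) ^ γ) ∧
      (∀ x, |fL O φ χ u x| ≤ M * (((s : ℝ) / n0) ^ γ / (s : ℝ) ^ 2)) := by
  classical
  obtain ⟨β, hβ, hSD, hOut⟩ := G1.decay
  obtain ⟨γ1, hγ1, hγ11, hpot⟩ := pot_meso
  obtain ⟨γ2, hγ2, hγ21, D2, hD2, hvm⟩ := visits_meso hβ (by norm_num) hSD hOut
  obtain ⟨D, hD, hvis⟩ := visits hβ (by norm_num) hSD
  obtain ⟨A, hA, hfl⟩ := fL_pt hβ (by norm_num) hSD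
  set γ := min γ1 γ2 with hγ
  have hγ0 : 0 < γ := lt_min hγ1 hγ2
  have hγl : γ ≤ 1 := (min_le_left _ _).trans hγ11
  refine ⟨γ, hγ0, hγl, fun C0 Cc' hC0 => ?_⟩
  obtain ⟨Cd, hCd, hpot⟩ := hpot C0 hC0
  set Cc := max Cc' 0 with hCc
  have hCc0 : 0 ≤ Cc := le_max_right _ _
  set K := A * (Cc + 1) with hK
  have hK0 : 0 ≤ K := by positivity
  refine ⟨K * (D * (128 * C0) + 128 * C0) + K * (D2 * C0 + 72 * C0) + K * (2 * Cd + 8 * C0),
    by positivity, ?_⟩
  intro O p n0 s χ φ u hO hCP hp hn hs h8 hχ hφ hu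
  have hCce : Cc = Cc' := max_eq_left (cut_C0_nonneg hχ)
  obtain ⟨ub, hub, hub0, hdom, hsup, hdec⟩ := hpot O p n0 φ u hO hCP hp hn hφ hu
  have hs0 : (0 : ℝ) < s := by exact_mod_cast hs
  have hs1 : (1 : ℝ) ≤ s := by exact_mod_cast hs
  have hn0 : (0 : ℝ) < n0 := by exact_mod_cast hn
  have hd0 : ∀ y, 0 ≤ dens C0 p n0 y := fun y => dens_nonneg hC0 p n0 y
  have hpt : ∀ x, |fL O φ χ u x| ≤
      if x ∈ O ∧ dF O x ≤ 2 * s then K * (ub x / s ^ 2 + dens C0 p n0 x) else 0 := by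
    intro x
    by_cases h0 : fL O φ χ u x = 0
    · rw [h0, abs_zero]
      split_ifs
      · have := hub0 x
        have := hd0 x
        positivity
      · exact le_rfl
    · obtain ⟨k1, k2, k3⟩ := hfl O hO s Cc' C0 χ φ u ub p n0 hs hn h8 hC0 hχ hu hφ hub hdom x h0
      rw [if_pos ⟨k1, k2⟩, hK, hCce]
      exact k3
  have hsum : ∀ S : Finset Pt, ∑ x ∈ S, |fL O φ χ u x| ≤
      K / s ^ 2 * (∑ x ∈ S.filter (fun x => x ∈ O ∧ dF O x ≤ 2 * s), ub x) +
        K * ∑ x ∈ S, dens C0 p n0 x := by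
    intro S
    calc ∑ x ∈ S, |fL O φ χ u x|
        ≤ ∑ x ∈ S, (if x ∈ O ∧ dF O x ≤ 2 * s then K * (ub x / s ^ 2 + dens C0 p n0 x) else 0) :=
          Finset.sum_le_sum (fun x _ => hpt x)
      _ = ∑ x ∈ S.filter (fun x => x ∈ O ∧ dF O x ≤ 2 * s),
            K * (ub x / s ^ 2 + dens C0 p n0 x) := by
          rw [Finset.sum_filter]
      _ = K / s ^ 2 * (∑ x ∈ S.filter (fun x => x ∈ O ∧ dF O x ≤ 2 * s), ub x) +
            K * ∑ x ∈ S.filter (fun x => x ∈ O ∧ dF O x ≤ 2 * s), dens C0 p n0 x := by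
          rw [← Finset.mul_sum, Finset.sum_add_distrib, ← Finset.sum_div]
          ring
      _ ≤ _ := by
          apply add_le_add le_rfl
          apply mul_le_mul_of_nonneg_left _ hK0
          exact Finset.sum_le_sum_of_subset_of_nonneg (Finset.filter_subset _ _)
            (fun x _ _ => hd0 x)
  have hM1 : 0 ≤ K * (D * (128 * C0) + 128 * C0) := by positivity
  have hM2 : 0 ≤ K * (D2 * C0 + 72 * C0) := by positivity
  have hM3 : 0 ≤ K * (2 * Cd + 8 * C0) := by positivity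
  refine ⟨?_, ?_, ?_⟩
  · intro S
    refine (hsum S).trans ?_
    have h1 := hvis O hO hCP s hs (S.filter (fun x => x ∈ O ∧ dF O x ≤ 2 * s))
      (dens C0 p n0) ub (fun x hx => (Finset.mem_filter.1 hx).2.2) hub (fun y _ => hd0 y)
    have h2 := dens_mass hC0 p hn hO.toFinset
    have h3 := dens_mass hC0 p hn S
    have h4 : K / (s : ℝ) ^ 2 * (∑ x ∈ S.filter (fun x => x ∈ O ∧ dF O x ≤ 2 * s), ub x) ≤
        K * (D * (128 * C0)) := by
      calc K / (s : ℝ) ^ 2 * (∑ x ∈ S.filter (fun x => x ∈ O ∧ dF O x ≤ 2 * s), ub x)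
          ≤ K / (s : ℝ) ^ 2 * (D * (s : ℝ) ^ 2 * (128 * C0)) := by
            apply mul_le_mul_of_nonneg_left _ (by positivity)
            exact h1.trans (mul_le_mul_of_nonneg_left h2 (by positivity))
        _ = K * (D * (128 * C0)) := by field_simp
    have h5 := mul_le_mul_of_nonneg_left h3 hK0
    linarith
  · intro z ρ hsρ hρn
    refine (hsum _).trans ?_
    have hρ0 : (0 : ℝ) < ρ := by exact_mod_cast (hs.trans hsρ)
    have hr : (ρ : ℝ) / n0 ≤ 1 := by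
      rw [div_le_one hn0]; exact_mod_cast hρn
    have hr0 : 0 < (ρ : ℝ) / n0 := by positivity
    have h1 := hvm O hO hCP p n0 C0 ub hn hC0 hub z s ρ hs hsρ
      ((box z ρ).filter (fun x => x ∈ O ∧ dF O x ≤ 2 * s))
      (fun x hx => G45.mem_box.1 (Finset.mem_filter.1 hx).1)
      (fun x hx => (Finset.mem_filter.1 hx).2.2)
    have hγ2' : ((ρ : ℝ) / n0) ^ γ2 ≤ ((ρ : ℝ) / n0) ^ γ :=
      Real.rpow_le_rpow_of_exponent_ge hr0 hr (min_le_right _ _)
    have hX : 0 ≤ ((ρ : ℝ) / n0) ^ γ := by positivity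
    have h2 : K / (s : ℝ) ^ 2 * (∑ x ∈ (box z ρ).filter (fun x => x ∈ O ∧ dF O x ≤ 2 * s),
        ub x) ≤ K * (D2 * C0) * ((ρ : ℝ) / n0) ^ γ := by
      calc K / (s : ℝ) ^ 2 * (∑ x ∈ (box z ρ).filter (fun x => x ∈ O ∧ dF O x ≤ 2 * s), ub x)
          ≤ K / (s : ℝ) ^ 2 * (D2 * C0 * (s : ℝ) ^ 2 * ((ρ : ℝ) / n0) ^ γ) := by
            apply mul_le_mul_of_nonneg_left _ (by positivity)
            exact h1.trans (mul_le_mul_of_nonneg_left hγ2' (by positivity))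
        _ = _ := by field_simp
    have h3 : ∑ x ∈ box z ρ, dens C0 p n0 x ≤ 72 * C0 * ((ρ : ℝ) / n0) ^ γ := by
      have hρ1 : (1 : ℝ) ≤ ρ := by exact_mod_cast (hs.trans hsρ)
      calc ∑ x ∈ box z ρ, dens C0 p n0 x ≤ ∑ x ∈ box z ρ, 8 * C0 / (n0 : ℝ) ^ 2 :=
            Finset.sum_le_sum (fun x _ => dens_le hC0 p hn x)
        _ = (2 * (ρ : ℝ) + 1) ^ 2 * (8 * C0 / (n0 : ℝ) ^ 2) := by
            rw [Finset.sum_const, nsmul_eq_mul, G45.card_box]
            push_cast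
            ring
        _ ≤ (9 * (ρ : ℝ) ^ 2) * (8 * C0 / (n0 : ℝ) ^ 2) := by
            apply mul_le_mul_of_nonneg_right _ (by positivity)
            nlinarith
        _ = 72 * C0 * ((ρ : ℝ) / n0) ^ (2 : ℝ) := by
            rw [show (2 : ℝ) = ((2 : ℕ) : ℝ) by norm_num, Real.rpow_natCast, div_pow]
            ring
        _ ≤ 72 * C0 * ((ρ : ℝ) / n0) ^ γ := by
            apply mul_le_mul_of_nonneg_left _ (by positivity)
            exact Real.rpow_le_rpow_of_exponent_ge hr0 hr (by linarith)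
    have h4 := mul_le_mul_of_nonneg_left h3 hK0
    have h5 := mul_nonneg hM1 hX
    have h6 := mul_nonneg hM3 hX
    calc _ ≤ K * (D2 * C0) * ((ρ : ℝ) / n0) ^ γ + K * (72 * C0 * ((ρ : ℝ) / n0) ^ γ) :=
          add_le_add h2 h4
      _ = K * (D2 * C0 + 72 * C0) * ((ρ : ℝ) / n0) ^ γ := by ring
      _ ≤ _ := by
          rw [add_mul, add_mul]
          linarith
  · intro x
    have hsn : (s : ℝ) / n0 ≤ 1 := by
      rw [div_le_one hn0]
      exact_mod_cast (by omega : s ≤ n0)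
    have hsn0 : 0 < (s : ℝ) / n0 := by positivity
    set q := ((s : ℝ) / n0) ^ γ / (s : ℝ) ^ 2 with hq
    have hq0 : 0 ≤ q := by positivity
    have hn2 : 1 / (n0 : ℝ) ^ 2 ≤ q := by
      have h3 : ((s : ℝ) / n0) ^ (2 : ℝ) ≤ ((s : ℝ) / n0) ^ γ :=
        Real.rpow_le_rpow_of_exponent_ge hsn0 hsn (by linarith)
      rw [show (2 : ℝ) = ((2 : ℕ) : ℝ) by norm_num, Real.rpow_natCast] at h3
      calc 1 / (n0 : ℝ) ^ 2 = ((s : ℝ) / n0) ^ 2 / (s : ℝ) ^ 2 := by field_simp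
        _ ≤ q := by rw [hq]; gcongr
    refine (hpt x).trans ?_
    split_ifs with hx
    · have h1 : ub x / (s : ℝ) ^ 2 ≤ 2 * Cd * q := by
        have h2 : ub x ≤ 2 * Cd * ((s : ℝ) / n0) ^ γ := by
          calc ub x ≤ Cd * ((dF O x : ℝ) / n0) ^ γ1 := hdec x
            _ ≤ Cd * (2 * ((s : ℝ) / n0) ^ γ) := by
                apply mul_le_mul_of_nonneg_left _ hCd
                calc ((dF O x : ℝ) / n0) ^ γ1 ≤ (2 * ((s : ℝ) / n0)) ^ γ1 := by
                      apply Real.rpow_le_rpow (by positivity) _ hγ1.le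
                      have : (dF O x : ℝ) ≤ 2 * s := by exact_mod_cast hx.2
                      rw [← mul_div_assoc]
                      gcongr
                  _ = 2 ^ γ1 * ((s : ℝ) / n0) ^ γ1 := Real.mul_rpow (by norm_num) hsn0.le
                  _ ≤ 2 * ((s : ℝ) / n0) ^ γ := by
                      apply mul_le_mul _ _ (by positivity) (by norm_num)
                      · calc (2 : ℝ) ^ γ1 ≤ 2 ^ (1 : ℝ) :=
                            Real.rpow_le_rpow_of_exponent_le (by norm_num) hγ11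
                          _ = 2 := Real.rpow_one _
                      · exact Real.rpow_le_rpow_of_exponent_ge hsn0 hsn (min_le_left _ _)
            _ = _ := by ring
        rw [hq, ← mul_div_assoc]
        exact div_le_div_of_nonneg_right h2 (by positivity)
      have h3 : dens C0 p n0 x ≤ 8 * C0 * q := by
        calc dens C0 p n0 x ≤ 8 * C0 / (n0 : ℝ) ^ 2 := dens_le hC0 p hn x
          _ = 8 * C0 * (1 / (n0 : ℝ) ^ 2) := by ring
          _ ≤ 8 * C0 * q := mul_le_mul_of_nonneg_left hn2 (by positivity)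
      have h4 : ub x / (s : ℝ) ^ 2 + dens C0 p n0 x ≤ (2 * Cd + 8 * C0) * q := by linarith
      have h5 := mul_le_mul_of_nonneg_left h4 hK0
      have h6 := mul_nonneg hM1 hq0
      have h7 := mul_nonneg hM2 hq0
      calc _ ≤ K * ((2 * Cd + 8 * C0) * q) := h5
        _ ≤ _ := by
            rw [add_mul, add_mul, ← mul_assoc]
            linarith
    · positivity

end Vale.Agent.P155.E4
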