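import Vale.Agent.P155.E4.Atom
import Vale.Agent.P155.E3.Final

/-!
# P155, TIGHT S5: numerical bounds
-/

namespace Vale.Agent.P155.E4

open Finset Skel J E E3 Filter

/-- number of layers -/
def nJ (R : ℕ) : ℕ := Nat.log 2 (R + 1) + 1

theorem nJ_pow (R : ℕ) : R + 1 ≤ 2 ^ nJ R := (Nat.lt_pow_succ_log_self (by norm_num) _).le

theorem nJ_le {R : ℕ} (hR : 1 ≤ R) : (nJ R : ℝ) ≤ 2 * (1 + Real.log R) := by
  have hRr : (1 : ℝ) ≤ R := by exact_mod_cast hR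
  have h1 : 2 ^ (Nat.log 2 (R + 1)) ≤ R + 1 := Nat.pow_log_le_self 2 (by omega)
  have h2 : (2 : ℝ) ^ (Nat.log 2 (R + 1)) ≤ 2 * R := by
    have : ((2 ^ (Nat.log 2 (R + 1)) : ℕ) : ℝ) ≤ ((R + 1 : ℕ) : ℝ) := by exact_mod_cast h1
    push_cast at this
    linarith
  have h3 : (Nat.log 2 (R + 1) : ℝ) * Real.log 2 ≤ Real.log 2 + Real.log R := by
    rw [← Real.log_mul (by norm_num) (by linarith), ← Real.log_pow]
    exact Real.log_le_log (by positivity) h2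
  have h4 : (0.6931471803 : ℝ) < Real.log 2 := Real.log_two_gt_d9
  have h5 := Real.log_nonneg hRr
  have h6 : (nJ R : ℝ) = (Nat.log 2 (R + 1) : ℝ) + 1 := by
    unfold nJ
    push_cast
    rfl
  rw [h6]
  by_contra hcon
  push Not at hcon
  have h7 : 1 + 2 * Real.log R < (Nat.log 2 (R + 1) : ℝ) := by linarith
  have h8 : (1 + 2 * Real.log R) * Real.log 2 < (Nat.log 2 (R + 1) : ℝ) * Real.log 2 :=
    mul_lt_mul_of_pos_right h7 (by linarith)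
  have h9 : Real.log R ≤ 2 * Real.log R * Real.log 2 := by nlinarith
  linarith

theorem nJ_le_R {R : ℕ} (hR : 1 ≤ R) : (nJ R : ℝ) ≤ 2 * R := by
  have hRr : (1 : ℝ) ≤ R := by exact_mod_cast hR
  have h1 := nJ_le hR
  have h2 := Real.log_le_sub_one_of_pos (show (0 : ℝ) < R by linarith)
  linarith

theorem nJ_pow_le {R : ℕ} (hR : 1 ≤ R) {δ : ℝ} (hδ : 0 < δ) :
    (nJ R : ℝ) ≤ 2 * (1 + 8 / δ) * (R : ℝ) ^ (δ / 8) := by
  have hRr : (1 : ℝ) ≤ R := by exact_mod_cast hR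
  have h1 := nJ_le hR
  have h2 := one_add_log_le (γ := δ / 4) (by linarith) hRr
  have e1 : 2 / (δ / 4) = 8 / δ := by field_simp; norm_num
  have e2 : δ / 4 / 2 = δ / 8 := by ring
  rw [e1, e2] at h2
  linarith

section
variable {R : ℝ} {s : ℕ} {a δ κ : ℝ}

theorem s_bounds (hR : 1 ≤ R) (ha : 0 ≤ a) (hs : s = ⌈R ^ a⌉₊) :
    R ^ a ≤ s ∧ (s : ℝ) ≤ 2 * R ^ a := by
  have h0 : 1 ≤ R ^ a := Real.one_le_rpow hR ha
  have h1 := Nat.le_ceil (R ^ a)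
  have h2 := Nat.ceil_lt_add_one (show 0 ≤ R ^ a by linarith)
  rw [← hs] at h1 h2
  exact ⟨h1, by linarith⟩

theorem s_neg (hR : 1 ≤ R) (ha : 0 ≤ a) (hs : s = ⌈R ^ a⌉₊) {e : ℝ} (he : 0 ≤ e) :
    (s : ℝ) ^ (-e) ≤ R ^ (-(a * e)) := by
  have hR0 : 0 < R := by linarith
  have h := (s_bounds hR ha hs).1
  calc (s : ℝ) ^ (-e) ≤ (R ^ a) ^ (-e) :=
        Real.rpow_le_rpow_of_nonpos (by positivity) h (by linarith)
    _ = R ^ (-(a * e)) := by rw [← Real.rpow_mul hR0.le]; congr 1; ring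

/-- first error term -/
theorem num1 {J : ℝ} {KJ CW : ℝ} (hR : 1 ≤ R) (ha : 0 ≤ a) (hs : s = ⌈R ^ a⌉₊) (hδ : 0 < δ)
    (hδa : δ ≤ a / 100) (hκ : κ = δ / 8) (hJ : J ≤ KJ * R ^ (δ / 8)) (hKJ : 0 ≤ KJ)
    (hCW : 0 ≤ CW) :
    R ^ κ * (J * (16 * CW * (s : ℝ) ^ (-(1 / 2) : ℝ))) ≤ 16 * KJ * CW * R ^ (-δ) := by
  have hR0 : 0 < R := by linarith
  have h1 := s_neg hR ha hs (e := 1 / 2) (by norm_num)
  calc R ^ κ * (J * (16 * CW * (s : ℝ) ^ (-(1 / 2) : ℝ)))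
      ≤ R ^ κ * ((KJ * R ^ (δ / 8)) * (16 * CW * R ^ (-(a * (1 / 2))))) := by gcongr
    _ = 16 * KJ * CW * (R ^ κ * R ^ (δ / 8) * R ^ (-(a * (1 / 2)))) := by ring
    _ ≤ 16 * KJ * CW * R ^ (-δ) := by
        apply mul_le_mul_of_nonneg_left _ (by positivity)
        rw [← Real.rpow_add hR0, ← Real.rpow_add hR0]
        apply Real.rpow_le_rpow_of_exponent_le hR
        rw [hκ]; linarith

/-- ratio of scales -/
theorem ratio {n0 : ℕ} {a1 γ c : ℝ} (hR : 1 ≤ R) (ha : 0 ≤ a) (hs : s = ⌈R ^ a⌉₊)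
    (haa : 4 * a ≤ a1) (hn0 : R ^ a1 ≤ n0) (hγ : 0 < γ) (hγ1 : γ ≤ 1) (hc : 0 ≤ c) (hc2 : c ≤ 2)
    (hδγ : δ ≤ a * γ / 100) : (c * (s : ℝ) / n0) ^ γ ≤ 4 * R ^ (-(3 * (100 * δ))) := by
  have hR0 : 0 < R := by linarith
  have h1 := (s_bounds hR ha hs).2
  have h2 : 0 < R ^ a1 := by positivity
  have h3 : c * (s : ℝ) / n0 ≤ 4 * R ^ (-(3 * a)) := by
    calc c * (s : ℝ) / n0 ≤ c * (s : ℝ) / R ^ a1 := by
          apply div_le_div_of_nonneg_left _ h2 hn0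
          positivity
      _ ≤ 2 * (2 * R ^ a) / R ^ a1 := by
          apply div_le_div_of_nonneg_right _ h2.le
          gcongr
      _ = 4 * (R ^ a * R ^ (-a1)) := by
          rw [Real.rpow_neg hR0.le]
          field_simp
          norm_num
      _ ≤ 4 * R ^ (-(3 * a)) := by
          apply mul_le_mul_of_nonneg_left _ (by norm_num)
          rw [← Real.rpow_add hR0]
          apply Real.rpow_le_rpow_of_exponent_le hR
          linarith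
  calc (c * (s : ℝ) / n0) ^ γ ≤ (4 * R ^ (-(3 * a))) ^ γ :=
        Real.rpow_le_rpow (by positivity) h3 hγ.le
    _ = 4 ^ γ * R ^ (-(3 * a) * γ) := by
        rw [Real.mul_rpow (by norm_num) (by positivity), ← Real.rpow_mul hR0.le]
    _ ≤ 4 * R ^ (-(3 * (100 * δ))) := by
        apply mul_le_mul _ _ (by positivity) (by norm_num)
        · calc (4 : ℝ) ^ γ ≤ 4 ^ (1 : ℝ) :=
              Real.rpow_le_rpow_of_exponent_le (by norm_num) hγ1
            _ = 4 := Real.rpow_one _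
        · apply Real.rpow_le_rpow_of_exponent_le hR
          nlinarith

/-- second error term -/
theorem num2 {J : ℝ} {KJ CW C0 Mm r : ℝ} (hR : 1 ≤ R) (ha : 0 ≤ a) (ha1 : a ≤ 1)
    (hs : s = ⌈R ^ a⌉₊) (hδ : 0 < δ) (hδ1 : δ ≤ 1 / 100)
    (hδa : δ ≤ a / 100) (hκ : κ = δ / 8) (hJ : J ≤ KJ * R ^ (δ / 8)) (hKJ : 0 ≤ KJ)
    (hCW : 0 ≤ CW) (hC0 : 0 ≤ C0) (hMm : 0 ≤ Mm) (hr : r ≤ 4 * R ^ (-(3 * (100 * δ))))
    (hr0 : 0 ≤ r) :
    R ^ κ * (J * (72 * CW * C0 * (s : ℝ) ^ (-(1 / 40) : ℝ) +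
      4 * CW * (Mm * r) * (s : ℝ) ^ (6 * κ))) ≤
      KJ * (72 * CW * C0 + 32 * CW * Mm) * R ^ (-δ) := by
  have hR0 : 0 < R := by linarith
  have h1 := s_neg hR ha hs (e := 1 / 40) (by norm_num)
  have h2 : (s : ℝ) ^ (6 * κ) ≤ 2 * R ^ δ := by
    calc (s : ℝ) ^ (6 * κ) ≤ (2 * R ^ a) ^ (6 * κ) :=
          Real.rpow_le_rpow (by positivity) (s_bounds hR ha hs).2 (by rw [hκ]; positivity)
      _ = 2 ^ (6 * κ) * R ^ (a * (6 * κ)) := by
          rw [Real.mul_rpow (by norm_num) (by positivity), ← Real.rpow_mul hR0.le]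
      _ ≤ 2 * R ^ δ := by
          apply mul_le_mul _ _ (by positivity) (by norm_num)
          · calc (2 : ℝ) ^ (6 * κ) ≤ 2 ^ (1 : ℝ) :=
                Real.rpow_le_rpow_of_exponent_le (by norm_num) (by rw [hκ]; linarith)
              _ = 2 := Real.rpow_one _
          · apply Real.rpow_le_rpow_of_exponent_le hR
            rw [hκ]
            nlinarith
  have h3 : 72 * CW * C0 * (s : ℝ) ^ (-(1 / 40) : ℝ) +
      4 * CW * (Mm * r) * (s : ℝ) ^ (6 * κ) ≤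
      (72 * CW * C0 + 32 * CW * Mm) * R ^ (-(2 * δ)) := by
    have k1 : 72 * CW * C0 * (s : ℝ) ^ (-(1 / 40) : ℝ) ≤ 72 * CW * C0 * R ^ (-(2 * δ)) := by
      apply mul_le_mul_of_nonneg_left _ (by positivity)
      refine h1.trans ?_
      apply Real.rpow_le_rpow_of_exponent_le hR
      linarith
    have k2 : 4 * CW * (Mm * r) * (s : ℝ) ^ (6 * κ) ≤ 32 * CW * Mm * R ^ (-(2 * δ)) := by
      calc 4 * CW * (Mm * r) * (s : ℝ) ^ (6 * κ)
          ≤ 4 * CW * (Mm * (4 * R ^ (-(3 * (100 * δ))))) * (2 * R ^ δ) := by gcongr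
        _ = 32 * CW * Mm * (R ^ (-(3 * (100 * δ))) * R ^ δ) := by ring
        _ ≤ _ := by
            apply mul_le_mul_of_nonneg_left _ (by positivity)
            rw [← Real.rpow_add hR0]
            apply Real.rpow_le_rpow_of_exponent_le hR
            linarith
    rw [add_mul]
    linarith
  have hX : 0 ≤ (72 * CW * C0 + 32 * CW * Mm) * R ^ (-(2 * δ)) := by positivity
  have hY : 0 ≤ 72 * CW * C0 * (s : ℝ) ^ (-(1 / 40) : ℝ) +
      4 * CW * (Mm * r) * (s : ℝ) ^ (6 * κ) := by positivity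
  calc R ^ κ * (J * (72 * CW * C0 * (s : ℝ) ^ (-(1 / 40) : ℝ) +
      4 * CW * (Mm * r) * (s : ℝ) ^ (6 * κ)))
      ≤ R ^ κ * ((KJ * R ^ (δ / 8)) * ((72 * CW * C0 + 32 * CW * Mm) * R ^ (-(2 * δ)))) := by
        gcongr
    _ = KJ * (72 * CW * C0 + 32 * CW * Mm) * (R ^ κ * R ^ (δ / 8) * R ^ (-(2 * δ))) := by ring
    _ ≤ _ := by
        apply mul_le_mul_of_nonneg_left _ (by positivity)
        rw [← Real.rpow_add hR0, ← Real.rpow_add hR0]
        apply Real.rpow_le_rpow_of_exponent_le hR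
        rw [hκ]; linarith

end

end Vale.Agent.P155.E4
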