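import Vale.Agent.P155.E4.Bump

/-!
# P155, TIGHT S5: the Whitney partition of `χ u` for a source at an arbitrary scale

The Whitney scale at `z` is about `min (dF O z) ((n0 + dn p z) ^ (9/10))`.
-/

namespace Vale.Agent.P155.E4

open Finset Vale.Agent.P155 Vale.Agent.P155.G45 Vale.Agent.P155.G

/-! ## the scale function -/

/-- the cap of the Whitney scale -/
noncomputable def capM (n0 k : ℕ) : ℕ := ⌊((n0 + k : ℕ) : ℝ) ^ (9 / 10 : ℝ)⌋₊

/-- the scale function -/
noncomputable def scD (O : Set Pt) (p : Pt) (n0 : ℕ) (z : Pt) : ℕ :=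
  min (dF O z) (capM n0 (dn p z))

theorem capM_mono {n0 k l : ℕ} (h : k ≤ l) : capM n0 k ≤ capM n0 l := by
  unfold capM
  apply Nat.floor_le_floor
  apply Real.rpow_le_rpow (by positivity) _ (by norm_num)
  exact_mod_cast (by omega : n0 + k ≤ n0 + l)

theorem capM_add (n0 k d : ℕ) : capM n0 (k + d) ≤ capM n0 k + d := by
  unfold capM
  rw [← Nat.floor_add_natCast (by positivity)]
  apply Nat.floor_le_floor
  have e : ((n0 + (k + d) : ℕ) : ℝ) = ((n0 + k : ℕ) : ℝ) + (d : ℝ) := by push_cast; ring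
  rw [e]
  refine (Real.rpow_add_le_add_rpow (by positivity) (by positivity) (by norm_num)
    (by norm_num)).trans ?_
  have h1 : (d : ℝ) ^ (9 / 10 : ℝ) ≤ d := by
    rcases Nat.eq_zero_or_pos d with h | h
    · rw [h]
      simp
    · have h1 : (1 : ℝ) ≤ d := by exact_mod_cast h
      calc (d : ℝ) ^ (9 / 10 : ℝ) ≤ (d : ℝ) ^ (1 : ℝ) :=
            Real.rpow_le_rpow_of_exponent_le h1 (by norm_num)
        _ = d := Real.rpow_one _
  linarith

theorem scD_lip {O : Set Pt} (hO : ∃ q, q ∉ O) (p : Pt) (n0 : ℕ) (x y : Pt) :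
    scD O p n0 x ≤ scD O p n0 y + dn x y := by
  unfold scD
  have h1 := dF_lip hO x y
  have h2 : capM n0 (dn p x) ≤ capM n0 (dn p y) + dn x y := by
    have h3 := dn_tri p y x
    rw [dn_comm y x] at h3
    exact (capM_mono h3).trans (capM_add n0 _ _)
  omega

theorem capM_nine {n0 : ℕ} (hn0 : 9 ^ 10 ≤ n0) (k : ℕ) : 9 * capM n0 k ≤ n0 + k := by
  have h1 : (9 ^ 10 : ℝ) ≤ ((n0 + k : ℕ) : ℝ) := by
    have : 9 ^ 10 ≤ n0 + k := by omega
    exact_mod_cast this
  have h0 : (0 : ℝ) < ((n0 + k : ℕ) : ℝ) := by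
    have : (0 : ℝ) < 9 ^ 10 := by norm_num
    linarith
  have h2 : (9 : ℝ) ≤ ((n0 + k : ℕ) : ℝ) ^ (1 / 10 : ℝ) := by
    calc (9 : ℝ) = ((9 : ℝ) ^ (10 : ℕ)) ^ (1 / 10 : ℝ) := by
          rw [← Real.rpow_natCast, ← Real.rpow_mul (by norm_num)]
          norm_num
      _ ≤ _ := Real.rpow_le_rpow (by norm_num) h1 (by norm_num)
  have h3 : (capM n0 k : ℝ) ≤ ((n0 + k : ℕ) : ℝ) ^ (9 / 10 : ℝ) := by
    unfold capM
    exact Nat.floor_le (by positivity)
  have h4 : ((n0 + k : ℕ) : ℝ) ^ (9 / 10 : ℝ) * ((n0 + k : ℕ) : ℝ) ^ (1 / 10 : ℝ) =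
      ((n0 + k : ℕ) : ℝ) := by
    rw [← Real.rpow_add h0]
    norm_num
  have h5 : 9 * (capM n0 k : ℝ) ≤ ((n0 + k : ℕ) : ℝ) := by
    calc 9 * (capM n0 k : ℝ) ≤ 9 * ((n0 + k : ℕ) : ℝ) ^ (9 / 10 : ℝ) := by linarith
      _ ≤ ((n0 + k : ℕ) : ℝ) ^ (1 / 10 : ℝ) * ((n0 + k : ℕ) : ℝ) ^ (9 / 10 : ℝ) :=
          mul_le_mul_of_nonneg_right h2 (by positivity)
      _ = _ := by rw [mul_comm]; exact h4
  exact_mod_cast h5

/-- the ball on which the cap is at most `m - 1` -/
theorem capM_count {n0 k m : ℕ} (h : capM n0 k < m) :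
    ((k : ℕ) : ℝ) ≤ (m : ℝ) ^ (10 / 9 : ℝ) := by
  have h1 : ((n0 + k : ℕ) : ℝ) ^ (9 / 10 : ℝ) < (capM n0 k : ℝ) + 1 := by
    unfold capM
    exact Nat.lt_floor_add_one _
  have h2 : (capM n0 k : ℝ) + 1 ≤ m := by exact_mod_cast h
  have h3 : ((n0 + k : ℕ) : ℝ) ^ (9 / 10 : ℝ) ≤ m := by linarith
  calc ((k : ℕ) : ℝ) ≤ ((n0 + k : ℕ) : ℝ) := by exact_mod_cast (by omega : k ≤ n0 + k)
    _ = (((n0 + k : ℕ) : ℝ) ^ (9 / 10 : ℝ)) ^ (10 / 9 : ℝ) := by
        rw [← Real.rpow_mul (by positivity)]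
        norm_num
    _ ≤ (m : ℝ) ^ (10 / 9 : ℝ) := Real.rpow_le_rpow (by positivity) h3 (by norm_num)

/-- the scales -/
def nn (s j : ℕ) : ℕ := s / 8 * 2 ^ j

theorem nn_le (s j : ℕ) : 8 * nn s j ≤ s * 2 ^ j := by
  unfold nn
  have : 8 * (s / 8 * 2 ^ j) = (8 * (s / 8)) * 2 ^ j := by ring
  rw [this]
  exact Nat.mul_le_mul_right _ (by omega)

theorem le_nn {s : ℕ} (hs : 64 ≤ s) (j : ℕ) : s * 2 ^ j ≤ 16 * nn s j := by
  unfold nn
  have : 16 * (s / 8 * 2 ^ j) = (16 * (s / 8)) * 2 ^ j := by ring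
  rw [this]
  exact Nat.mul_le_mul_right _ (by omega)

theorem nn_ge {s : ℕ} (hs : 64 ≤ s) (j : ℕ) : 8 ≤ nn s j ∧ s ≤ 16 * nn s j := by
  have h1 : 1 ≤ 2 ^ j := Nat.one_le_two_pow
  have h2 : s / 8 ≤ s / 8 * 2 ^ j := Nat.le_mul_of_pos_right _ h1
  unfold nn
  omega

/-! ## the partition -/

/-- The Whitney partition. -/
structure Whit (O : Set Pt) (p : Pt) (n0 s J : ℕ) (t : ℕ → ℕ) (C : ℝ) (u : Pt → ℝ) where
  act : ℕ → Finset Pt
  x : ℕ → Pt → Pt
  H : ℕ → Pt → ℝ
  ψ : ℕ → Pt → Pt → ℝ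
  hn : ∀ j, ∀ k ∈ act j, 64 * nn s j ≤ n0 + dn p (x j k) ∧ 7 * nn s j ≤ dF O (x j k) ∧
    0 ≤ H j k ∧ IsBump (x j k) (t (nn s j)) (H j k) (ψ j k)
  sum : ∀ y, cutf O s y * u y = ∑ j ∈ range J, ∑ k ∈ act j, ψ j k y
  scale : ∀ j, (∑ k ∈ act j, H j k) * (t (nn s j) : ℝ) ^ 2 ≤
    C * (if 97 * nn s j ≤ capM n0 0 then (nn s j : ℝ) ^ 2 else (nn s j : ℝ) ^ (20 / 9 : ℝ))
  near : ∀ j, (∑ k ∈ (act j).filter (fun k => dn p (x j k) ≤ n0 + nn s j), H j k) *
    (t (nn s j) : ℝ) ^ 2 ≤ C * (n0 : ℝ) ^ 2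

/-- geometry of the active cells -/
theorem act_geo {O : Set Pt} (hO : ∃ q, q ∉ O) {p : Pt} {n0 : ℕ} (hn0 : 9 ^ 10 ≤ n0) {s j t : ℕ}
    (hs : 64 ≤ s) (htn : 16 * t ≤ nn s j) {c z : Pt} (hz : layD (scD O p n0) s j z ≠ 0)
    (hd : dn c z ≤ t) : 7 * nn s j ≤ dF O c ∧ 64 * nn s j ≤ n0 + dn p c ∧
      ∀ z', dn c z' ≤ t → z' ∈ O ∧ scD O p n0 z' ≤ 5 * (s * 2 ^ j) := by
  obtain ⟨h1, h2⟩ := layD_ne (scD_lip hO p n0) (by omega : 8 ≤ s) hz
  have h3 := nn_le s j
  have h4 := (nn_ge hs j).1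
  have h5 : scD O p n0 z ≤ dF O z := min_le_left _ _
  have h6 : scD O p n0 z ≤ capM n0 (dn p z) := min_le_right _ _
  have h7 := capM_nine hn0 (dn p z)
  have h8 := dF_lip hO z c
  rw [dn_comm z c] at h8
  have h9 := dn_tri p c z
  have h10 : 7 * nn s j ≤ dF O c := by omega
  refine ⟨h10, by omega, fun z' hz' => ⟨mem_of_lt_dF (x := c) (by omega), ?_⟩⟩
  have h11 := scD_lip hO p n0 z' z
  have h12 := dn_tri z' c z
  rw [dn_comm z' c] at h12
  omega

/-- **The Whitney partition exists.** -/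
theorem exists_whit {A : ℝ} (hA : 1 ≤ A) (hH : Har A) {Dv : ℝ} (hDv : 0 < Dv)
    (hV : ∀ (O : Set Pt) (hO : O.Finite), CPr O → ∀ r : ℕ, 1 ≤ r →
      ∀ (S : Finset Pt) (φ u : Pt → ℝ), (∀ x ∈ S, dF O x ≤ 2 * r) →
      IsGreen O φ u → (∀ x ∈ O, 0 ≤ φ x) →
      ∑ x ∈ S, u x ≤ Dv * (r : ℝ) ^ 2 * ∑ x ∈ hO.toFinset, φ x) {C0 Cd : ℝ} (hC0 : 0 ≤ C0)
    (hCd : 0 ≤ Cd) :
    ∃ C : ℝ, 0 ≤ C ∧ ∀ (O : Set Pt) (p : Pt) (n0 s J R : ℕ) (t : ℕ → ℕ) (φ u ub : Pt → ℝ),
      O.Finite → CPr O → (∀ x ∈ O, dn (0, 0) x ≤ R) → 9 ^ 10 ≤ n0 → 64 ≤ s →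
      2 * s ≤ capM n0 0 → (∀ n, s ≤ 16 * n → 1 ≤ t n ∧ 16 * t n ≤ n) →
      (∀ z, dF O z ≤ s * 2 ^ J) →
      IsBump p n0 (C0 / (n0 : ℝ) ^ 2) φ → IsGreen O φ u → IsGreen O (dens C0 p n0) ub →
      (∀ y, |u y| ≤ ub y) → (∀ y, ub y ≤ Cd) → Nonempty (Whit O p n0 s J t C u) := by
  classical
  obtain ⟨H1, hH1⟩ : ∃ H1 : ℝ,
      H1 = 256 * ((2 * 32 ^ 4) * (32 ^ 4)) * (64 ^ 4 * (4 * A + 108)) := ⟨_, rfl⟩
  have hH1pos : 0 ≤ H1 := by rw [hH1]; positivity
  refine ⟨H1 * (9 * (4 * A)) * (Dv * 2304 * (128 * C0) + 9 * 531441 * Cd + 25 * Cd),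
    by positivity, ?_⟩
  intro O p n0 s J R t φ u ub hO hCP hOR hn0 hs hsM ht hJ hφ hu hub huub hubCd
  have hOne := exists_notMem hO
  have hn01 : 1 ≤ n0 := by omega
  have hn0r : (1 : ℝ) ≤ n0 := by exact_mod_cast hn01
  have hub0 : ∀ y, 0 ≤ ub y := fun y => (abs_nonneg _).trans (huub y)
  have htj : ∀ j, 1 ≤ t (nn s j) ∧ 16 * t (nn s j) ≤ nn s j := fun j => ht _ (nn_ge hs j).2
  set D := scD O p n0 with hD
  have hDlip := scD_lip hOne p n0
  have hd0 : ∀ y, 0 ≤ dens C0 p n0 y := fun y => dens_nonneg hC0 p n0 y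
  -- general estimate of the sum over active cells
  have hcells : ∀ (j : ℕ) (lam : Pt → ℝ) (S : Finset Pt), (∀ z, lam z ≠ 0 → layD D s j z ≠ 0) →
      (∀ k ∈ active O (t (nn s j)) R lam, ∀ z', dn (corner (t (nn s j)) k) z' ≤ t (nn s j) →
        z' ∈ S) →
      (∑ k ∈ active O (t (nn s j)) R lam, ub (corner (t (nn s j)) k)) * (t (nn s j) : ℝ) ^ 2 ≤
        9 * (4 * A) * ∑ z ∈ S, ub z := by
    intro j lam S hlam hS
    apply sum_cells (by linarith) hub0
    intro k hk z hz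
    obtain ⟨z0, hz0O, hz0, hd⟩ := active_spec (htj j).1 hk
    obtain ⟨g1, g2, g3⟩ := act_geo hOne hn0 hs (htj j).2 (hlam z0 hz0) hd
    have hcd := cell_dn (htj j).1 hz
    refine ⟨hS k hk z hcd, ?_⟩
    exact har_ub hA hH hC0 hn01 hub hub0 g1 g2 (by rw [dn_self]; omega)
      (by have := (htj j).2; omega)
  refine ⟨{
    act := fun j => active O (t (nn s j)) R (layD D s j)
    x := fun j k => corner (t (nn s j)) k
    H := fun j k => H1 * ub (corner (t (nn s j)) k)
    ψ := fun j k y => layD D s j y * rho (t (nn s j)) k y * u y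
    hn := ?_
    sum := ?_
    scale := ?_
    near := ?_ }⟩
  · intro j k hk
    obtain ⟨z0, hz0O, hz0, hd⟩ := active_spec (htj j).1 hk
    obtain ⟨g1, g2, g3⟩ := act_geo hOne hn0 hs (htj j).2 hz0 hd
    refine ⟨g2, g1, mul_nonneg hH1pos (hub0 _), ?_⟩
    have hb := bump_loc hA hH hC0 hn01 hφ hu hub hub0 huub (htj j).1 (htj j).2 (nn_ge hs j).1
      g1 g2 (lam := layD D s j) (ρ := rho (t (nn s j)) k) (Λ := 2 * 32 ^ 4) (P := 32 ^ 4)
      (layD_diff D (by omega) j (htj j).1 (by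
        have := nn_le s j
        have := (htj j).2
        omega))
      (rho_diff (t (nn s j)) (htj j).1 k)
      (fun y hy => rho_supp (htj j).1 hy)
    have he : 256 * (2 * 32 ^ 4 * 32 ^ 4) *
        (64 ^ 4 * (4 * A + 108) * ub (corner (t (nn s j)) k)) =
        H1 * ub (corner (t (nn s j)) k) := by
      rw [hH1]; ring
    rw [he] at hb
    exact hb
  · intro y
    have h1 : ∀ j ∈ range J, ∑ k ∈ active O (t (nn s j)) R (layD D s j),
        layD D s j y * rho (t (nn s j)) k y * u y = layD D s j y * u y :=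
      fun j _ => sum_active hu.off hOR y
    rw [Finset.sum_congr rfl h1, ← Finset.sum_mul, layD_sum]
    have h2 : cutD D (s * 2 ^ J) y = 0 := by
      apply cutD_zero hDlip
      · have : 1 ≤ 2 ^ J := Nat.one_le_two_pow
        nlinarith
      · exact (min_le_left _ _).trans (hJ y)
    have h3 : cutD D s = cutf O s := by
      apply cutD_eq_cutf
      intro z
      have h4 : 2 * s ≤ capM n0 (dn p z) := hsM.trans (capM_mono (Nat.zero_le _))
      rw [hD]
      unfold scD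
      omega
    rw [h2, sub_zero, h3]
  · intro j
    rw [← Finset.mul_sum, mul_assoc]
    set S := hO.toFinset.filter (fun z => D z ≤ 5 * (s * 2 ^ j)) with hS
    have h1 := hcells j (layD D s j) S (fun z h => h) (fun k hk z' hz' => by
      obtain ⟨z0, hz0O, hz0, hd⟩ := active_spec (htj j).1 hk
      obtain ⟨g1, g2, g3⟩ := act_geo hOne hn0 hs (htj j).2 hz0 hd
      rw [hS, Finset.mem_filter]
      exact ⟨by simpa using (g3 z' hz').1, (g3 z' hz').2⟩)
    have hnj := nn_ge hs j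
    have hnn1 : (1 : ℝ) ≤ (nn s j : ℝ) := by exact_mod_cast (by omega : 1 ≤ nn s j)
    -- the part near the complement
    set S1 := hO.toFinset.filter (fun z => dF O z ≤ 2 * (3 * (s * 2 ^ j))) with hS1
    have hr : 1 ≤ 3 * (s * 2 ^ j) := by
      have := nn_le s j
      omega
    have h2 : ∑ z ∈ S1, ub z ≤ Dv * 2304 * (128 * C0) * (nn s j : ℝ) ^ 2 := by
      have h3 := hV O hO hCP (3 * (s * 2 ^ j)) hr S1 (dens C0 p n0) ub
        (fun x hx => (Finset.mem_filter.1 hx).2) hub (fun x _ => hd0 x)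
      have h4 := dens_mass hC0 p hn01 hO.toFinset
      have h5 : ((3 * (s * 2 ^ j) : ℕ) : ℝ) ≤ 48 * nn s j := by
        have : 3 * (s * 2 ^ j) ≤ 48 * nn s j := by
          have := le_nn hs j
          omega
        exact_mod_cast this
      calc ∑ z ∈ S1, ub z ≤ Dv * ((3 * (s * 2 ^ j) : ℕ) : ℝ) ^ 2 *
            ∑ x ∈ hO.toFinset, dens C0 p n0 x := h3
        _ ≤ Dv * (48 * (nn s j : ℝ)) ^ 2 * (128 * C0) := by
            apply mul_le_mul _ h4 (Finset.sum_nonneg (fun x _ => hd0 x)) (by positivity)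
            apply mul_le_mul_of_nonneg_left _ hDv.le
            exact pow_le_pow_left₀ (by positivity) h5 2
        _ = _ := by ring
    have hK0 : 0 ≤ H1 * (9 * (4 * A)) := by positivity
    by_cases hsm : 97 * nn s j ≤ capM n0 0
    · rw [if_pos hsm]
      have hSS : S ⊆ S1 := by
        intro z hz
        rw [hS, Finset.mem_filter] at hz
        rw [hS1, Finset.mem_filter]
        refine ⟨hz.1, ?_⟩
        have h3 : capM n0 0 ≤ capM n0 (dn p z) := capM_mono (Nat.zero_le _)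
        have h4 := le_nn hs j
        have h5 : scD O p n0 z ≤ 5 * (s * 2 ^ j) := hz.2
        unfold scD at h5
        omega
      have h3 : ∑ z ∈ S, ub z ≤ ∑ z ∈ S1, ub z :=
        Finset.sum_le_sum_of_subset_of_nonneg hSS (fun z _ _ => hub0 z)
      calc H1 * ((∑ k ∈ active O (t (nn s j)) R (layD D s j), ub (corner (t (nn s j)) k)) *
            (t (nn s j) : ℝ) ^ 2)
          ≤ H1 * (9 * (4 * A) * (Dv * 2304 * (128 * C0) * (nn s j : ℝ) ^ 2)) := by
            apply mul_le_mul_of_nonneg_left _ hH1pos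
            exact h1.trans (mul_le_mul_of_nonneg_left (h3.trans h2) (by positivity))
        _ = H1 * (9 * (4 * A)) * (Dv * 2304 * (128 * C0)) * (nn s j : ℝ) ^ 2 := by ring
        _ ≤ _ := by
            apply mul_le_mul_of_nonneg_right _ (by positivity)
            apply mul_le_mul_of_nonneg_left _ hK0
            have : 0 ≤ 9 * 531441 * Cd + 25 * Cd := by positivity
            linarith
    · rw [if_neg hsm]
      set B : ℝ := ((81 * nn s j : ℕ) : ℝ) ^ (10 / 9 : ℝ) with hB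
      have hB1 : 1 ≤ B := by
        apply Real.one_le_rpow _ (by norm_num)
        exact_mod_cast (by omega : 1 ≤ 81 * nn s j)
      set L : ℕ := ⌊B⌋₊ with hL
      have hLB : (L : ℝ) ≤ B := Nat.floor_le (by linarith)
      have hSS : S ⊆ S1 ∪ box p L := by
        intro z hz
        rw [hS, Finset.mem_filter] at hz
        rw [Finset.mem_union]
        have h5 : scD O p n0 z ≤ 5 * (s * 2 ^ j) := hz.2
        unfold scD at h5
        rcases le_total (dF O z) (capM n0 (dn p z)) with h6 | h6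
        · left
          rw [hS1, Finset.mem_filter]
          exact ⟨hz.1, by omega⟩
        · right
          rw [G45.mem_box]
          apply Nat.le_floor
          apply capM_count (n0 := n0)
          have h4 := le_nn hs j
          omega
      have h3 : ∑ z ∈ box p L, ub z ≤ 9 * 531441 * Cd * (nn s j : ℝ) ^ (20 / 9 : ℝ) := by
        calc ∑ z ∈ box p L, ub z ≤ ∑ _z ∈ box p L, Cd := Finset.sum_le_sum (fun z _ => hubCd z)
          _ = (2 * (L : ℝ) + 1) ^ 2 * Cd := by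
              rw [Finset.sum_const, nsmul_eq_mul, G45.card_box]
              push_cast
              ring
          _ ≤ (3 * B) ^ 2 * Cd := by
              apply mul_le_mul_of_nonneg_right _ hCd
              apply pow_le_pow_left₀ (by positivity)
              linarith
          _ = 9 * Cd * B ^ 2 := by ring
          _ ≤ 9 * Cd * (531441 * (nn s j : ℝ) ^ (20 / 9 : ℝ)) := by
              apply mul_le_mul_of_nonneg_left _ (by positivity)
              have e1 : B ^ 2 = (81 : ℝ) ^ (20 / 9 : ℝ) * (nn s j : ℝ) ^ (20 / 9 : ℝ) := by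
                rw [hB, ← Real.rpow_natCast, ← Real.rpow_mul (by positivity)]
                push_cast
                rw [Real.mul_rpow (by norm_num) (by positivity)]
                norm_num
              rw [e1]
              apply mul_le_mul_of_nonneg_right _ (by positivity)
              calc (81 : ℝ) ^ (20 / 9 : ℝ) ≤ (81 : ℝ) ^ ((3 : ℕ) : ℝ) :=
                    Real.rpow_le_rpow_of_exponent_le (by norm_num) (by norm_num)
                _ = 531441 := by rw [Real.rpow_natCast]; norm_num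
          _ = _ := by ring
      have h4 : ∑ z ∈ S, ub z ≤ ∑ z ∈ S1, ub z + ∑ z ∈ box p L, ub z := by
        calc ∑ z ∈ S, ub z ≤ ∑ z ∈ S1 ∪ box p L, ub z :=
              Finset.sum_le_sum_of_subset_of_nonneg hSS (fun z _ _ => hub0 z)
          _ ≤ _ := by
              have := Finset.sum_union_inter (s₁ := S1) (s₂ := box p L) (f := ub)
              have h5 : 0 ≤ ∑ z ∈ S1 ∩ box p L, ub z := Finset.sum_nonneg (fun z _ => hub0 z)
              linarith
      have h5 : (nn s j : ℝ) ^ 2 ≤ (nn s j : ℝ) ^ (20 / 9 : ℝ) := by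
        rw [← Real.rpow_natCast]
        exact Real.rpow_le_rpow_of_exponent_le hnn1 (by norm_num)
      have h6 : Dv * 2304 * (128 * C0) * (nn s j : ℝ) ^ 2 ≤
          Dv * 2304 * (128 * C0) * (nn s j : ℝ) ^ (20 / 9 : ℝ) :=
        mul_le_mul_of_nonneg_left h5 (by positivity)
      have h7 : ∑ z ∈ S, ub z ≤
          (Dv * 2304 * (128 * C0) + 9 * 531441 * Cd) * (nn s j : ℝ) ^ (20 / 9 : ℝ) := by
        rw [add_mul]
        linarith
      calc H1 * ((∑ k ∈ active O (t (nn s j)) R (layD D s j), ub (corner (t (nn s j)) k)) *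
            (t (nn s j) : ℝ) ^ 2)
          ≤ H1 * (9 * (4 * A) *
              ((Dv * 2304 * (128 * C0) + 9 * 531441 * Cd) * (nn s j : ℝ) ^ (20 / 9 : ℝ))) := by
            apply mul_le_mul_of_nonneg_left _ hH1pos
            exact h1.trans (mul_le_mul_of_nonneg_left h7 (by positivity))
        _ = H1 * (9 * (4 * A)) * (Dv * 2304 * (128 * C0) + 9 * 531441 * Cd) *
              (nn s j : ℝ) ^ (20 / 9 : ℝ) := by ring
        _ ≤ _ := by
            apply mul_le_mul_of_nonneg_right _ (by positivity)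
            apply mul_le_mul_of_nonneg_left _ hK0
            have : 0 ≤ 25 * Cd := by positivity
            linarith
  · intro j
    rw [← Finset.mul_sum, mul_assoc]
    have hnj := nn_ge hs j
    set lam : Pt → ℝ := fun z => if dn p z ≤ n0 + 2 * nn s j then layD D s j z else 0 with hlam
    have hlam1 : ∀ z, lam z ≠ 0 → layD D s j z ≠ 0 ∧ dn p z ≤ n0 + 2 * nn s j := by
      intro z hz
      simp only [hlam] at hz
      split_ifs at hz with h
      · exact ⟨hz, h⟩
      · exact absurd rfl hz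
    have hsub : (active O (t (nn s j)) R (layD D s j)).filter
        (fun k => dn p (corner (t (nn s j)) k) ≤ n0 + nn s j) ⊆ active O (t (nn s j)) R lam := by
      intro k hk
      rw [Finset.mem_filter] at hk
      have hk1 := hk.1
      unfold active at hk1 ⊢
      rw [Finset.mem_filter] at hk1 ⊢
      obtain ⟨hk2, z, hz1, hz2, hz3⟩ := hk1
      refine ⟨hk2, z, ?_, hz2, hz3⟩
      have h1 := rho_supp (htj j).1 hz2
      have h2 := dn_tri p (corner (t (nn s j)) k) z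
      have h3 := (htj j).2
      simp only [hlam]
      rw [if_pos (by have := hk.2; omega)]
      exact hz1
    set S := box p (2 * n0) with hS
    have h1 := hcells j lam S (fun z h => (hlam1 z h).1) (fun k hk z' hz' => by
      obtain ⟨z0, hz0O, hz0, hd⟩ := active_spec (htj j).1 hk
      obtain ⟨g1, g2, g3⟩ := act_geo hOne hn0 hs (htj j).2 (hlam1 z0 hz0).1 hd
      have g4 := (hlam1 z0 hz0).2
      have g5 := dn_tri p z0 (corner (t (nn s j)) k)
      rw [dn_comm z0] at g5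
      have g6 := dn_tri p (corner (t (nn s j)) k) z'
      have g7 := (htj j).2
      rw [hS, G45.mem_box]
      omega)
    have h2 : ∑ z ∈ S, ub z ≤ 25 * Cd * (n0 : ℝ) ^ 2 := by
      calc ∑ z ∈ S, ub z ≤ ∑ _z ∈ S, Cd := Finset.sum_le_sum (fun z _ => hubCd z)
        _ = (2 * (2 * (n0 : ℝ)) + 1) ^ 2 * Cd := by
            rw [Finset.sum_const, nsmul_eq_mul, hS, G45.card_box]
            push_cast
            ring
        _ ≤ (5 * (n0 : ℝ)) ^ 2 * Cd := by
            apply mul_le_mul_of_nonneg_right _ hCd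
            apply pow_le_pow_left₀ (by positivity)
            linarith
        _ = _ := by ring
    have h3 : (∑ k ∈ (active O (t (nn s j)) R (layD D s j)).filter
        (fun k => dn p (corner (t (nn s j)) k) ≤ n0 + nn s j), ub (corner (t (nn s j)) k)) ≤
        ∑ k ∈ active O (t (nn s j)) R lam, ub (corner (t (nn s j)) k) :=
      Finset.sum_le_sum_of_subset_of_nonneg hsub (fun k _ _ => hub0 _)
    have hK0 : 0 ≤ H1 * (9 * (4 * A)) := by positivity
    calc H1 * ((∑ k ∈ (active O (t (nn s j)) R (layD D s j)).filter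
          (fun k => dn p (corner (t (nn s j)) k) ≤ n0 + nn s j), ub (corner (t (nn s j)) k)) *
          (t (nn s j) : ℝ) ^ 2)
        ≤ H1 * (9 * (4 * A) * (25 * Cd * (n0 : ℝ) ^ 2)) := by
          apply mul_le_mul_of_nonneg_left _ hH1pos
          refine le_trans (mul_le_mul_of_nonneg_right h3 (by positivity)) ?_
          exact h1.trans (mul_le_mul_of_nonneg_left h2 (by positivity))
      _ = H1 * (9 * (4 * A)) * (25 * Cd) * (n0 : ℝ) ^ 2 := by ring
      _ ≤ _ := by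
          apply mul_le_mul_of_nonneg_right _ (by positivity)
          apply mul_le_mul_of_nonneg_left _ hK0
          have : 0 ≤ Dv * 2304 * (128 * C0) + 9 * 531441 * Cd := by positivity
          linarith

end Vale.Agent.P155.E4
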