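import Vale.Agent.P155.E4.Sum
import Vale.Agent.P155.E4.Whit
import Vale.Agent.P155.E3.Layer

/-!
# P155, TIGHT S5: masses in Whitney boxes and the energy of `χu` at an arbitrary scale
-/

namespace Vale.Agent.P155.E4

open Finset Skel J E E3

/-- the standard cut-off -/
theorem isCut_cutf {O : Set Pt} (hO : ∃ q, q ∉ O) {s : ℕ} (hs : 8 ≤ s) :
    IsCut O s (32 ^ 4) (G45.cutf O s) :=
  ⟨G45.cutf_nonneg O s, G45.cutf_le_one O hs, fun _ h => G45.cutf_zero hO hs h,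
    fun _ h => G45.cutf_one hO hs h, G45.cutf_diff O hs⟩

theorem bump_mass {φ : Pt → ℝ} {p : Pt} {n0 : ℕ} {C0 : ℝ} (hn0 : 1 ≤ n0) (hC0 : 0 ≤ C0)
    (hφ : IsBump p n0 (C0 / (n0 : ℝ) ^ 2) φ) (S : Finset Pt) : ∑ y ∈ S, |φ y| ≤ 9 * C0 := by
  have hn1 : (1 : ℝ) ≤ n0 := by exact_mod_cast hn0
  calc ∑ y ∈ S, |φ y| = ∑ y ∈ S.filter (fun y => y ∈ box p n0), |φ y| := by
        symm
        apply Finset.sum_subset (Finset.filter_subset _ _)
        intro y hy hy2
        have : y ∉ box p n0 := fun h => hy2 (Finset.mem_filter.2 ⟨hy, h⟩)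
        rw [hφ.1 y this, abs_zero]
    _ ≤ ∑ y ∈ box p n0, |φ y| := by
        apply Finset.sum_le_sum_of_subset_of_nonneg
        · intro y hy
          exact (Finset.mem_filter.1 hy).2
        · intro y _ _
          exact abs_nonneg _
    _ ≤ ∑ _y ∈ box p n0, C0 / (n0 : ℝ) ^ 2 :=
        Finset.sum_le_sum (fun y _ => IsBump.abs_le hφ y)
    _ = (2 * (n0 : ℝ) + 1) ^ 2 * (C0 / (n0 : ℝ) ^ 2) := by
        rw [Finset.sum_const, nsmul_eq_mul, card_box']
    _ ≤ (3 * (n0 : ℝ)) ^ 2 * (C0 / (n0 : ℝ) ^ 2) := by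
        apply mul_le_mul_of_nonneg_right _ (by positivity)
        exact pow_le_pow_left₀ (by positivity) (by linarith) 2
    _ = _ := by field_simp; ring

/-- the mass of `Δ(χu)` in a Whitney box -/
theorem mass_box {O : Set Pt} {s : ℕ} {φ u χ : Pt → ℝ} {p x : Pt} {n0 n : ℕ} {C0 Cc : ℝ}
    (hO : O.Finite) (hs : 1 ≤ s) (hu : IsGreen O φ u) (hχ : IsCut O s Cc χ) (hC0 : 0 ≤ C0)
    (hn : 1 ≤ n) (hφ : IsBump p n0 (C0 / (n0 : ℝ) ^ 2) φ) (hx : 7 * n ≤ dF O x) {Λ : ℝ}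
    (hm : ∀ z : Pt, ∑ y ∈ box z s, |fL O φ χ u y| ≤ Λ) :
    ∑ y ∈ box x n, |lap (fun y => χ y * u y) y| ≤
      (if dn p x ≤ n0 + n then 9 * C0 * ((n : ℝ) / n0) ^ 2 else 0) +
      (if 3 * n ≤ s then Λ else 0) := by
  classical
  have hn1r : (1 : ℝ) ≤ n := by exact_mod_cast hn
  have hOne : ∃ q, q ∉ O := hO.infinite_compl.nonempty
  have h1 : ∑ y ∈ box x n, |lap (fun y => χ y * u y) y| ≤
      ∑ y ∈ box x n, |φ y| + ∑ y ∈ box x n, |fL O φ χ u y| := by
    rw [← Finset.sum_add_distrib]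
    apply Finset.sum_le_sum
    intro y _
    rw [lap_eq_fL O φ]
    refine (abs_sub _ _).trans ?_
    rw [add_comm]
    apply add_le_add _ le_rfl
    split_ifs
    · exact le_rfl
    · rw [abs_zero]; exact abs_nonneg _
  have h2 : ∑ y ∈ box x n, |φ y| ≤
      if dn p x ≤ n0 + n then 9 * C0 * ((n : ℝ) / n0) ^ 2 else 0 := by
    split_ifs with hpx
    · calc ∑ y ∈ box x n, |φ y| ≤ ∑ _y ∈ box x n, C0 / (n0 : ℝ) ^ 2 :=
            Finset.sum_le_sum (fun y _ => IsBump.abs_le hφ y)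
        _ = (2 * (n : ℝ) + 1) ^ 2 * (C0 / (n0 : ℝ) ^ 2) := by
            rw [Finset.sum_const, nsmul_eq_mul, card_box']
        _ ≤ (3 * (n : ℝ)) ^ 2 * (C0 / (n0 : ℝ) ^ 2) := by
            apply mul_le_mul_of_nonneg_right _ (by positivity)
            exact pow_le_pow_left₀ (by positivity) (by linarith) 2
        _ = _ := by rw [div_pow]; ring
    · apply le_of_eq
      apply Finset.sum_eq_zero
      intro y hy
      rw [hφ.1 y, abs_zero]
      intro hy2
      have h4 := dn_le_iff.2 hy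
      have h5 := dn_le_iff.2 hy2
      have h6 := dn_triangle p y x
      rw [dn_comm y x] at h6
      omega
  have h3 : ∑ y ∈ box x n, |fL O φ χ u y| ≤ if 3 * n ≤ s then Λ else 0 := by
    split_ifs with hns
    · refine le_trans ?_ (hm x)
      apply Finset.sum_le_sum_of_subset_of_nonneg
      · intro y hy
        exact dn_le_iff.1 ((dn_le_iff.2 hy).trans (by omega))
      · intro y _ _
        exact abs_nonneg _
    · apply le_of_eq
      apply Finset.sum_eq_zero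
      intro y hy
      by_contra hne
      have hne' : fL O φ χ u y ≠ 0 := fun h => hne (by rw [h, abs_zero])
      have h4 := (H12.fL_supp hOne hs hχ hu hne').2
      have h5 := dn_le_iff.2 hy
      have h6 := dF_sub_le hO x y
      omega
  linarith

/-- the energy of `χu` versus `⟨φ, u⟩` -/
theorem pair_D {O : Set Pt} {R s : ℕ} {φ u χ : Pt → ℝ} {p : Pt} {n0 : ℕ} {C0 Cd Cc γ Mm : ℝ}
    (hn0 : 1 ≤ n0) (hC0 : 0 ≤ C0) (hCd : 0 ≤ Cd) (hγ : 0 < γ)
    (hφ : IsBump p n0 (C0 / (n0 : ℝ) ^ 2) φ)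
    (hu : IsGreen O φ u) (hO : O.Finite) (hOR : O ⊆ (box (0, 0) R : Set Pt)) (hs : 1 ≤ s)
    (hdec : ∀ x, |u x| ≤ Cd * ((dF O x : ℝ) / n0) ^ γ) (hχ : IsCut O s Cc χ)
    (hmt : ∀ S : Finset Pt, ∑ x ∈ S, |fL O φ χ u x| ≤ Mm) :
    |pair φ u + pair (fun y => χ y * u y) (lap (fun y => χ y * u y))| ≤
      (9 * C0 * Cd + Cd * Mm) * ((2 * s : ℝ) / n0) ^ γ := by
  classical
  have hOne : ∃ q, q ∉ O := hO.infinite_compl.nonempty
  have hn1 : (1 : ℝ) ≤ n0 := by exact_mod_cast hn0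
  have hu0 : ∀ y, y ∉ box (0, 0) R → u y = 0 := by
    intro y hy
    exact hu.off y (fun h => hy (by exact_mod_cast hOR h))
  have hg0 : ∀ y, y ∉ box (0, 0) R → χ y * u y = 0 := by
    intro y hy
    rw [hu0 y hy, mul_zero]
  have hle : ∀ y, dF O y ≤ 2 * s → |u y| ≤ Cd * ((2 * s : ℝ) / n0) ^ γ := by
    intro y hy
    refine (hdec y).trans ?_
    apply mul_le_mul_of_nonneg_left _ hCd
    apply Real.rpow_le_rpow (by positivity) _ hγ.le
    apply div_le_div_of_nonneg_right _ (by positivity)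
    exact_mod_cast hy
  have e0 : pair φ u = ∑ y ∈ box (0, 0) R, u y * φ y := by
    unfold pair
    rw [← finsum_eq_box (g := fun y => u y) hu0]
    exact finsum_congr (fun y => by ring)
  have e1 : pair φ u + pair (fun y => χ y * u y) (lap (fun y => χ y * u y)) =
      ∑ y ∈ box (0, 0) R, χ y * u y * fL O φ χ u y +
      ∑ y ∈ box (0, 0) R, φ y * ((1 - χ y) * u y) := by
    rw [e0]
    unfold pair
    rw [finsum_eq_box (g := fun y => χ y * u y) hg0, ← Finset.sum_add_distrib,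
      ← Finset.sum_add_distrib]
    refine Finset.sum_congr rfl (fun y _ => ?_)
    rw [lap_eq_fL O φ]
    split_ifs with hy
    · ring
    · rw [hu.off y hy]; ring
  have h2 : |∑ y ∈ box (0, 0) R, χ y * u y * fL O φ χ u y| ≤
      Cd * Mm * ((2 * s : ℝ) / n0) ^ γ := by
    refine (Finset.abs_sum_le_sum_abs _ _).trans ?_
    have h3 : ∀ y ∈ box (0, 0) R, |χ y * u y * fL O φ χ u y| ≤
        (Cd * ((2 * s : ℝ) / n0) ^ γ) * |fL O φ χ u y| := by
      intro y _
      by_cases hne : fL O φ χ u y = 0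
      · rw [hne]; simp
      · have h4 := (H12.fL_supp hOne hs hχ hu hne).2
        rw [abs_mul, abs_mul]
        apply mul_le_mul_of_nonneg_right _ (abs_nonneg _)
        have h5 : |χ y| ≤ 1 := by
          rw [abs_of_nonneg (hχ.nonneg y)]; exact hχ.le_one y
        calc |χ y| * |u y| ≤ 1 * (Cd * ((2 * s : ℝ) / n0) ^ γ) :=
              mul_le_mul h5 (hle y h4) (abs_nonneg _) (by norm_num)
          _ = _ := one_mul _
    refine (Finset.sum_le_sum h3).trans ?_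
    rw [← Finset.mul_sum]
    calc Cd * ((2 * s : ℝ) / n0) ^ γ * ∑ y ∈ box (0, 0) R, |fL O φ χ u y|
        ≤ Cd * ((2 * s : ℝ) / n0) ^ γ * Mm :=
          mul_le_mul_of_nonneg_left (hmt _) (by positivity)
      _ = _ := by ring
  have h3 : |∑ y ∈ box (0, 0) R, φ y * ((1 - χ y) * u y)| ≤
      9 * C0 * Cd * ((2 * s : ℝ) / n0) ^ γ := by
    refine (Finset.abs_sum_le_sum_abs _ _).trans ?_
    have h4 : ∀ y ∈ box (0, 0) R, |φ y * ((1 - χ y) * u y)| ≤
        |φ y| * (Cd * ((2 * s : ℝ) / n0) ^ γ) := by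
      intro y _
      rw [abs_mul]
      apply mul_le_mul_of_nonneg_left _ (abs_nonneg _)
      by_cases hy : 2 * s ≤ dF O y
      · rw [hχ.one y hy]
        simp
        positivity
      · rw [abs_mul]
        have h5 : |1 - χ y| ≤ 1 := by
          rw [abs_le]; constructor <;> linarith [hχ.nonneg y, hχ.le_one y]
        calc |1 - χ y| * |u y| ≤ 1 * (Cd * ((2 * s : ℝ) / n0) ^ γ) :=
              mul_le_mul h5 (hle y (by omega)) (abs_nonneg _) (by norm_num)
          _ = _ := one_mul _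
    refine (Finset.sum_le_sum h4).trans ?_
    rw [← Finset.sum_mul]
    calc (∑ y ∈ box (0, 0) R, |φ y|) * (Cd * ((2 * s : ℝ) / n0) ^ γ)
        ≤ 9 * C0 * (Cd * ((2 * s : ℝ) / n0) ^ γ) :=
          mul_le_mul_of_nonneg_right (bump_mass hn0 hC0 hφ _) (by positivity)
      _ = _ := by ring
  rw [e1]
  refine (abs_add_le _ _).trans ?_
  rw [add_mul]
  linarith

/-- bound of `⟨φ, u⟩` -/
theorem pair_le {O : Set Pt} {R : ℕ} {φ u : Pt → ℝ} {p : Pt} {n0 : ℕ} {C0 Cd : ℝ}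
    (hn0 : 1 ≤ n0) (hC0 : 0 ≤ C0) (hCd : 0 ≤ Cd) (hφ : IsBump p n0 (C0 / (n0 : ℝ) ^ 2) φ)
    (hu : IsGreen O φ u) (hOR : O ⊆ (box (0, 0) R : Set Pt)) (huC : ∀ x, |u x| ≤ Cd) :
    |pair φ u| ≤ 9 * C0 * Cd := by
  have hu0 : ∀ y, y ∉ box (0, 0) R → u y = 0 := by
    intro y hy
    exact hu.off y (fun h => hy (by exact_mod_cast hOR h))
  have e0 : pair φ u = ∑ y ∈ box (0, 0) R, u y * φ y := by
    unfold pair
    rw [← finsum_eq_box (g := fun y => u y) hu0]
    exact finsum_congr (fun y => by ring)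
  rw [e0]
  refine (Finset.abs_sum_le_sum_abs _ _).trans ?_
  calc ∑ y ∈ box (0, 0) R, |u y * φ y| ≤ ∑ y ∈ box (0, 0) R, Cd * |φ y| := by
        apply Finset.sum_le_sum
        intro y _
        rw [abs_mul]
        exact mul_le_mul_of_nonneg_right (huC y) (abs_nonneg _)
    _ = Cd * ∑ y ∈ box (0, 0) R, |φ y| := by rw [Finset.mul_sum]
    _ ≤ Cd * (9 * C0) := mul_le_mul_of_nonneg_left (bump_mass hn0 hC0 hφ _) hCd
    _ = _ := by ring

end Vale.Agent.P155.E4
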