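import Vale.Agent.P155.E3.SumQ

/-!
# P155, TIGHT S5: first and second moments of `h(Δg)` for a finite family of bumps
-/

namespace Vale.Agent.P155.E4

open Finset Skel J E E3

section
variable {T : Temp} {R : ℕ} {κ CE : ℝ} {O : Set Pt} {X : Expl} {ω : Conf}
  {G : Pt → ℕ → Set Conf} {S : ℕ → Prop} {ι : Type*} {I : Finset ι} {x : ι → Pt} {n : ι → ℕ}
  {H : ι → ℝ} {ψ : ι → Pt → ℝ} {g : Pt → ℝ}

/-- a finite family of bumps in boxes of scales `n q` deep in `O` -/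
structure Fam (O : Set Pt) (R : ℕ) (κ : ℝ) (S : ℕ → Prop) {ι : Type*} (I : Finset ι) (x : ι → Pt)
    (n : ι → ℕ) (H : ι → ℝ) (ψ : ι → Pt → ℝ) (g : Pt → ℝ) : Prop where
  hS : ∀ q ∈ I, S (n q)
  h1 : ∀ q ∈ I, 1 ≤ n q
  hR : ∀ q ∈ I, n q ≤ R
  deep : ∀ q ∈ I, 4 * n q ≤ dF O (x q)
  H0 : ∀ q ∈ I, 0 ≤ H q
  bump : ∀ q ∈ I, IsBump (x q) ⌊(n q : ℝ) ^ (1 - 3 * κ)⌋₊ (H q) (ψ q)
  tn : ∀ q ∈ I, ⌊(n q : ℝ) ^ (1 - 3 * κ)⌋₊ ≤ n q
  sum : ∀ y, g y = ∑ q ∈ I, ψ q y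

theorem Fam.lap_eq (F : Fam O R κ S I x n H ψ g) : lap g = fun y => ∑ q ∈ I, lap (ψ q) y := by
  funext y
  rw [← lap_sum]
  congr 1
  funext y
  exact F.sum y

theorem Fam.hf_eq (F : Fam O R κ S I x n H ψ g) (ω : Conf) :
    hf ω (lap g) = ∑ q ∈ I, hf ω (lap (ψ q)) := by
  rw [F.lap_eq, hf_sum (fun q hq => fs_lap (IsBump.fs (F.bump q hq)))]

theorem Fam.pair_eq (F : Fam O R κ S I x n H ψ g) (f : Pt → ℝ) :
    pair g f = ∑ q ∈ I, pair (ψ q) f := by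
  rw [← pair_sum (fun q hq => IsBump.fs (F.bump q hq))]
  congr 1
  funext y
  exact F.sum y

theorem Fam.abs_lap_le (F : Fam O R κ S I x n H ψ g) (y : Pt) : |lap g y| ≤ 8 * ∑ q ∈ I, H q := by
  rw [F.lap_eq, Finset.mul_sum]
  refine (Finset.abs_sum_le_sum_abs _ _).trans (Finset.sum_le_sum ?_)
  intro q hq
  have h := F.bump q hq
  have a1 := IsBump.abs_le h (y.1 + 1, y.2)
  have a2 := IsBump.abs_le h (y.1 - 1, y.2)
  have a3 := IsBump.abs_le h (y.1, y.2 + 1)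
  have a4 := IsBump.abs_le h (y.1, y.2 - 1)
  have a5 := IsBump.abs_le h y
  unfold Vale.Agent.P155.lap
  rw [abs_le] at *
  constructor <;> linarith [a1.1, a1.2, a2.1, a2.2, a3.1, a3.2, a4.1, a4.2, a5.1, a5.2]

/-- first moment -/
theorem first_moment (hX : IsExpl T.V X) (hω : ω ∈ DD T.V)
    (hR1 : 1 ≤ R) (hfit : Fits T R) (hO : O ⊆ T.faceSet)
    (hin : ∀ v : Pt, (∀ f : Pt, v.1 - 1 ≤ f.1 → f.1 ≤ v.1 → v.2 - 1 ≤ f.2 → f.2 ≤ v.2 → f ∈ O) →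
      v ∈ (X ω).1 ∧ v ∈ (X ω).2) (F : Fam O R κ S I x n H ψ g) (hCE : 0 ≤ CE)
    (hG : LocGood T κ CE R G S) :
    |cEx T.V X (fun ω' => hf ω' (lap g)) ω| ≤
      CE * (R : ℝ) ^ κ * (∑ q ∈ I, H q * (n q : ℝ) ^ (-1 + κ)) +
      1400 * (R : ℝ) ^ 3 * (∑ q ∈ I, H q) * cEx T.V X (badW R G) ω := by
  have hfin : T.faceSet.Finite := fs_of_sub_box hfit
  have hRr : (1 : ℝ) ≤ R := by exact_mod_cast hR1
  have e0 : cEx T.V X (fun ω' => hf ω' (lap g)) ω =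
      ∑ q ∈ I, cEx T.V X (fun ω' => hf ω' (lap (ψ q))) ω := by
    rw [cEx_congr (g' := fun ω' => ∑ q ∈ I, hf ω' (lap (ψ q)))
      (fun ω' _ => F.hf_eq ω'), cEx_sum]
  rw [e0]
  refine (Finset.abs_sum_le_sum_abs _ _).trans ?_
  have hterm : ∀ q ∈ I, |cEx T.V X (fun ω' => hf ω' (lap (ψ q))) ω| ≤
      CE * (R : ℝ) ^ κ * (H q * (n q : ℝ) ^ (-1 + κ)) +
        1400 * (R : ℝ) ^ 3 * H q * cEx T.V X (badW R G) ω := by
    intro q hq
    have p0 := F.h1 q hq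
    have q4 := F.H0 q hq
    have q3 := F.deep q hq
    have hn1 : (1 : ℝ) ≤ n q := by exact_mod_cast p0
    have hd2 : 2 * n q ≤ dF T.faceSet (x q) := by
      have := dF_mono hO hfin (x q)
      omega
    obtain ⟨s1, s2⟩ := box_sub_X hin p0 q3
    have hb := box_to_X hX hω s1 s2 (G := G (x q) (n q))
      (W := fun ω' => hf ω' (lap (ψ q))) (F := fun _ => 0) (K := 0)
      (c := CE * (H q) * (R : ℝ) ^ κ * (n q : ℝ) ^ (-1 + κ)) (e := 0)
      (b' := 1400 * (R : ℝ) ^ 3 * H q) le_rfl (by positivity) (by positivity)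
      (fun ω' h' hg => by
        rw [add_zero, zero_mul, zero_add]
        exact (hG (x q) (n q) (F.hS q hq) hd2 ω' h' hg (H q) (ψ q) (F.bump q hq)).1)
      (fun ω' h' => by
        rw [add_zero]
        exact crude_Y hR1 hfit h' (F.bump q hq) ((F.tn q hq).trans (F.hR q hq)))
    rw [add_zero, zero_mul, zero_add] at hb
    refine hb.trans ?_
    have hx : x q ∈ box (0, 0) R := by
      have : x q ∈ O := mem_of_dF_pos (by omega)
      exact hfit (hO this)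
    have hle : cEx T.V X (bad (G (x q) (n q))) ω ≤ cEx T.V X (badW R G) ω :=
      cEx_mono (fun ω' _ => bad_le_badW hx (F.hR q hq) ω')
    have h2 : CE * H q * (R : ℝ) ^ κ * (n q : ℝ) ^ (-1 + κ) =
        CE * (R : ℝ) ^ κ * (H q * (n q : ℝ) ^ (-1 + κ)) := by ring
    have h3 : 1400 * (R : ℝ) ^ 3 * H q * cEx T.V X (bad (G (x q) (n q))) ω ≤
        1400 * (R : ℝ) ^ 3 * H q * cEx T.V X (badW R G) ω :=
      mul_le_mul_of_nonneg_left hle (by positivity)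
    linarith
  refine (Finset.sum_le_sum hterm).trans (le_of_eq ?_)
  rw [Finset.sum_add_distrib, Finset.mul_sum, Finset.mul_sum, Finset.sum_mul]

/-- second moment -/
theorem second_moment (hI : E_incr) (hM : E_meas) (hX : IsExpl T.V X) (hω : ω ∈ DD T.V)
    (hR1 : 1 ≤ R) (hfit : Fits T R) (hO : O ⊆ T.faceSet)
    (hin : ∀ v : Pt, (∀ f : Pt, v.1 - 1 ≤ f.1 → f.1 ≤ v.1 → v.2 - 1 ≤ f.2 → f.2 ≤ v.2 → f ∈ O) →
      v ∈ (X ω).1 ∧ v ∈ (X ω).2) (F : Fam O R κ S I x n H ψ g) (hCE : 0 ≤ CE)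
    (hG : LocGood T κ CE R G S) {μ : ι → ℝ}
    (hmass : ∀ q ∈ I, ∑ y ∈ box (x q) (n q), |lap g y| ≤ μ q) :
    |cEx T.V X (fun ω' => (hf ω' (lap g)) ^ 2) ω + 2 / Real.pi * pair g (lap g)| ≤
      CE * (R : ℝ) ^ κ * (∑ q ∈ I, H q * (n q : ℝ) ^ (-1 + κ)) *
        cEx T.V X (fun ω' => |hf ω' (lap g)|) ω +
      CE * (R : ℝ) ^ κ * (∑ q ∈ I, H q * (n q : ℝ) ^ (-(1 / 20) : ℝ) * μ q) +
      2000000 * (R : ℝ) ^ 6 * (∑ q ∈ I, H q) ^ 2 * cEx T.V X (badW R G) ω := by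
  have hfin : T.faceSet.Finite := fs_of_sub_box hfit
  have hRr : (1 : ℝ) ≤ R := by exact_mod_cast hR1
  set f : Pt → ℝ := lap g with hf'
  set SH : ℝ := ∑ q ∈ I, H q with hSH
  have hSH0 : 0 ≤ SH := Finset.sum_nonneg (fun q hq => F.H0 q hq)
  set E1 : ℝ := cEx T.V X (fun ω' => |hf ω' f|) ω with hE1
  have hE10 : 0 ≤ E1 := cEx_nonneg (fun _ _ => abs_nonneg _)
  have hB0 : 0 ≤ cEx T.V X (badW R G) ω := cEx_nonneg (fun _ _ => badW_nonneg _ _ _)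
  have e0 : cEx T.V X (fun ω' => (hf ω' f) ^ 2) ω + 2 / Real.pi * pair g f =
      ∑ q ∈ I, (cEx T.V X (fun ω' => hf ω' (lap (ψ q)) * hf ω' f) ω +
        2 / Real.pi * pair (ψ q) f) := by
    rw [cEx_congr (g' := fun ω' => ∑ q ∈ I, hf ω' (lap (ψ q)) * hf ω' f)
      (fun ω' _ => by
      rw [← Finset.sum_mul, ← F.hf_eq ω', sq]), cEx_sum, F.pair_eq, Finset.mul_sum,
      Finset.sum_add_distrib]
  rw [e0]
  refine (Finset.abs_sum_le_sum_abs _ _).trans ?_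
  have hcrude : ∀ ω' ∈ DD T.V, |hf ω' f| ≤ 1400 * (R : ℝ) ^ 3 * SH := by
    intro ω' h'
    rw [hf', F.hf_eq ω', hSH, Finset.mul_sum]
    refine (Finset.abs_sum_le_sum_abs _ _).trans (Finset.sum_le_sum ?_)
    intro q hq
    exact crude_Y hR1 hfit h' (F.bump q hq) ((F.tn q hq).trans (F.hR q hq))
  have hterm : ∀ q ∈ I, |cEx T.V X (fun ω' => hf ω' (lap (ψ q)) * hf ω' f) ω +
        2 / Real.pi * pair (ψ q) f| ≤
      CE * (R : ℝ) ^ κ * (H q * (n q : ℝ) ^ (-1 + κ)) * E1 +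
      CE * (R : ℝ) ^ κ * (H q * (n q : ℝ) ^ (-(1 / 20) : ℝ) * μ q) +
        2000000 * (R : ℝ) ^ 6 * H q * SH * cEx T.V X (badW R G) ω := by
    intro q hq
    have p0 := F.h1 q hq
    have q4 := F.H0 q hq
    have q3 := F.deep q hq
    have q5 := F.bump q hq
    have p2 := F.tn q hq
    have hn1 : (1 : ℝ) ≤ n q := by exact_mod_cast p0
    have hnR : n q ≤ R := F.hR q hq
    have htR : ((⌊((n q : ℕ) : ℝ) ^ (1 - 3 * κ)⌋₊ : ℕ) : ℝ) ≤ R := by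
      exact_mod_cast p2.trans hnR
    have hd2 : 2 * n q ≤ dF T.faceSet (x q) := by
      have := dF_mono hO hfin (x q)
      omega
    obtain ⟨s1, s2⟩ := box_sub_X hin p0 q3
    set e1 : ℝ := CE * (H q) * (R : ℝ) ^ κ * (n q : ℝ) ^ (-1 + κ) with he1
    set e2 : ℝ := CE * (H q) * (R : ℝ) ^ κ * (n q : ℝ) ^ (-(1 / 20) : ℝ) with he2
    set Fq : ℝ := ∑ y ∈ box (x q) (n q), |f y| with hFq
    have hFq0 : 0 ≤ Fq := Finset.sum_nonneg (fun _ _ => abs_nonneg _)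
    have he10 : 0 ≤ e1 := by positivity
    have he20 : 0 ≤ e2 := by positivity
    have hpairc : |2 / Real.pi * pair (ψ q) f| ≤ 72 * (R : ℝ) ^ 6 * H q * SH := by
      have h1 : |pair (ψ q) f| ≤ (2 * (⌊((n q : ℕ) : ℝ) ^ (1 - 3 * κ)⌋₊ : ℝ) + 1) ^ 2 *
          (H q * (8 * SH)) := by
        unfold pair
        apply J.abs_finsum_le (x := x q)
        · intro y
          rw [abs_mul]
          exact mul_le_mul (IsBump.abs_le q5 y) (F.abs_lap_le y) (abs_nonneg _) q4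
        · intro y hy
          rw [q5.1 y hy, zero_mul]
      have h2 : (2 * (⌊((n q : ℕ) : ℝ) ^ (1 - 3 * κ)⌋₊ : ℝ) + 1) ^ 2 ≤ 9 * (R : ℝ) ^ 6 := by
        calc (2 * (⌊((n q : ℕ) : ℝ) ^ (1 - 3 * κ)⌋₊ : ℝ) + 1) ^ 2 ≤ (3 * (R : ℝ)) ^ 2 :=
              pow_le_pow_left₀ (by positivity) (by linarith) 2
          _ = 9 * (R : ℝ) ^ 2 := by ring
          _ ≤ 9 * (R : ℝ) ^ 6 := by
              apply mul_le_mul_of_nonneg_left _ (by norm_num)
              exact pow_le_pow_right₀ hRr (by norm_num)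
      rw [abs_mul, abs_of_pos (by positivity : (0:ℝ) < 2 / Real.pi)]
      calc 2 / Real.pi * |pair (ψ q) f| ≤ 1 * ((9 * (R : ℝ) ^ 6) * (H q * (8 * SH))) := by
            apply mul_le_mul two_div_pi_le_one _ (abs_nonneg _) (by norm_num)
            exact h1.trans (mul_le_mul_of_nonneg_right h2 (by positivity))
        _ = _ := by ring
    have hb := box_to_X hX hω s1 s2 (G := G (x q) (n q))
      (W := fun ω' => hf ω' (lap (ψ q)) * hf ω' f) (F := fun ω' => hf ω' f)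
      (K := 2 / Real.pi * pair (ψ q) f) (c := Fq * e2) (e := e1)
      (b' := 2000000 * (R : ℝ) ^ 6 * H q * SH) he10 (by positivity) (by positivity)
      (fun ω' h' hg => by
        obtain ⟨g1, g2⟩ := hG (x q) (n q) (F.hS q hq) hd2 ω' h' hg (H q) (ψ q) q5
        exact box_two hI hM hfit h' q5 p2 g1 g2)
      (fun ω' h' => by
        refine (abs_add_le _ _).trans ?_
        have c1 : |hf ω' (lap (ψ q)) * hf ω' f| ≤
            (1400 * (R : ℝ) ^ 3 * H q) * (1400 * (R : ℝ) ^ 3 * SH) := by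
          rw [abs_mul]
          exact mul_le_mul (crude_Y hR1 hfit h' q5 (by omega)) (hcrude ω' h') (abs_nonneg _)
            (by positivity)
        have c2 : (1400 * (R : ℝ) ^ 3 * H q) * (1400 * (R : ℝ) ^ 3 * SH) =
            1960000 * ((R : ℝ) ^ 6 * H q * SH) := by ring
        have c3 : 0 ≤ (R : ℝ) ^ 6 * H q * SH := by positivity
        linarith)
    refine hb.trans ?_
    have hx : x q ∈ box (0, 0) R := by
      have : x q ∈ O := mem_of_dF_pos (by omega)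
      exact hfit (hO this)
    have hle : cEx T.V X (bad (G (x q) (n q))) ω ≤ cEx T.V X (badW R G) ω :=
      cEx_mono (fun ω' _ => bad_le_badW hx (by omega) ω')
    have h2 : e1 = CE * (R : ℝ) ^ κ * (H q * (n q : ℝ) ^ (-1 + κ)) := by
      rw [he1]; ring
    have h3 : Fq * e2 ≤ CE * (R : ℝ) ^ κ * (H q * (n q : ℝ) ^ (-(1 / 20) : ℝ) * μ q) := by
      calc Fq * e2 ≤ μ q * e2 := mul_le_mul_of_nonneg_right (hmass q hq) he20
        _ = _ := by rw [he2]; ring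
    have h4 : 2000000 * (R : ℝ) ^ 6 * H q * SH * cEx T.V X (bad (G (x q) (n q))) ω ≤
        2000000 * (R : ℝ) ^ 6 * H q * SH * cEx T.V X (badW R G) ω :=
      mul_le_mul_of_nonneg_left hle (by positivity)
    rw [h2]
    linarith
  refine (Finset.sum_le_sum hterm).trans (le_of_eq ?_)
  rw [Finset.sum_add_distrib, Finset.sum_add_distrib]
  have s1 : ∑ q ∈ I, CE * (R : ℝ) ^ κ * (H q * (n q : ℝ) ^ (-1 + κ)) * E1 =
      CE * (R : ℝ) ^ κ * (∑ q ∈ I, H q * (n q : ℝ) ^ (-1 + κ)) * E1 := by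
    rw [Finset.mul_sum, Finset.sum_mul]
  have s2 : ∑ q ∈ I, CE * (R : ℝ) ^ κ * (H q * (n q : ℝ) ^ (-(1 / 20) : ℝ) * μ q) =
      CE * (R : ℝ) ^ κ * (∑ q ∈ I, H q * (n q : ℝ) ^ (-(1 / 20) : ℝ) * μ q) := by
    rw [Finset.mul_sum]
  have s4 : ∑ q ∈ I, 2000000 * (R : ℝ) ^ 6 * H q * SH * cEx T.V X (badW R G) ω =
      2000000 * (R : ℝ) ^ 6 * SH ^ 2 * cEx T.V X (badW R G) ω := by
    rw [← Finset.sum_mul, ← Finset.sum_mul, ← Finset.mul_sum, ← hSH]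
    ring
  rw [s1, s2, s4]

end

end Vale.Agent.P155.E4
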